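import Vale.Agent.P200.Betti.Free.Defs

/-!
The ranks of the complex of cells do not change under an extension of the field.
-/

namespace Vale.Agent.P200.Betti.Pow

open Finset Module
open Vale.Agent.P200.Betti.Free (Pt cells sp unit' prj dd rkM hM prj_apply dd_apply)

variable {K L : Type*} [Field K] [Field L] [Algebra K L]

/-- Linear independence of vectors of scalars survives an extension. -/
lemma linearIndependent_map {X ι : Type*} {v : ι → X → K} (hv : LinearIndependent K v) :
    LinearIndependent L fun i => (Algebra.linearMap K L).compLeft X (v i) := by
  classical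
  rw [linearIndependent_iff']
  intro s g hg i hi
  have b := Basis.ofVectorSpace K L
  refine b.repr.injective (Finsupp.ext fun j => ?_)
  rw [map_zero, Finsupp.zero_apply]
  refine linearIndependent_iff'.1 hv s (fun i => b.repr (g i) j) ?_ i hi
  funext x
  have h := congrFun hg x
  simp only [Finset.sum_apply, Pi.smul_apply, smul_eq_mul, Pi.zero_apply] at h ⊢
  have h' := congrArg (fun y => b.repr y j) h
  simp only [map_sum, map_zero, Finsupp.zero_apply, Finsupp.coe_finsetSum, Finset.sum_apply] at h'
  refine Eq.trans (sum_congr rfl fun k _ => ?_) h'
  show b.repr (g k) j * v k x = b.repr (g k * algebraMap K L (v k x)) j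
  rw [mul_comm (g k), ← Algebra.smul_def, map_smul, Finsupp.smul_apply, smul_eq_mul, mul_comm]

/-- The dimension of a span of vectors of scalars survives an extension. -/
lemma finrank_span_map {X ι : Type*} [Finite ι] (v : ι → X → K) :
    finrank L (Submodule.span L (Set.range fun i => (Algebra.linearMap K L).compLeft X (v i))) =
      finrank K (Submodule.span K (Set.range v)) := by
  classical
  obtain ⟨κ, f, hf, hspan, hli⟩ := exists_linearIndependent' K v
  have := Fintype.ofFinite ι
  have : Fintype κ := Fintype.ofInjective f hf
  set φ := (Algebra.linearMap K L).compLeft X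
  have hs : Submodule.span L (Set.range fun i => φ (v i)) =
      Submodule.span L (Set.range fun k => φ (v (f k))) := by
    refine le_antisymm (Submodule.span_le.2 ?_)
      (Submodule.span_mono (Set.range_comp_subset_range f (fun i => φ (v i))))
    rintro _ ⟨i, rfl⟩
    have hi : v i ∈ Submodule.span K (Set.range (v ∘ f)) :=
      hspan ▸ Submodule.subset_span ⟨i, rfl⟩
    have h := Submodule.mem_map_of_mem (f := φ) hi
    rw [Submodule.map_span, ← Set.range_comp] at h
    exact Submodule.span_le_restrictScalars K L _ h
  rw [hs, ← hspan, finrank_span_eq_card hli, finrank_span_eq_card]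
  exact linearIndependent_map hli

variable (K L) in
theorem rkM_baseChange {n : ℕ} (M : Set (Fin n → ℕ)) (p d : ℕ) :
    rkM L M p d = rkM K M p d := by
  classical
  cases p with
  | zero => rfl
  | succ q =>
    set φ := (Algebra.linearMap K L).compLeft (Pt n)
    have hkey : ∀ z : Pt n, prj L M (dd L (unit' L z)) = φ (prj K M (dd K (unit' K z))) := by
      intro z
      funext w
      show _ = algebraMap K L _
      rw [prj_apply, prj_apply, dd_apply, dd_apply]
      split_ifs with hw
      · rw [map_zero]
      rw [map_sum]
      refine sum_congr rfl fun k _ => ?_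
      by_cases hk : 1 ≤ w.2 k
      · rw [if_pos hk, if_pos hk, map_mul, map_intCast]
        congr 1
        simp only [unit', Pi.single_apply]
        split_ifs <;> simp
      · rw [if_neg hk, if_neg hk, map_zero]
    show finrank L ((sp L (cells n (q + 1) d)).map _) = finrank K ((sp K (cells n (q + 1) d)).map _)
    rw [sp, sp, Submodule.map_span, Submodule.map_span, ← Set.range_comp, ← Set.range_comp]
    have h := finrank_span_map (L := L)
      (fun z : cells n (q + 1) d => prj K M (dd K (unit' K (z : Pt n))))
    refine Eq.trans ?_ h
    exact congrArg
      (fun v : cells n (q + 1) d → Pt n → L => finrank L (Submodule.span L (Set.range v)))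
      (funext fun z => hkey (z : Pt n))

variable (K L) in
theorem hM_baseChange {n : ℕ} (M : Set (Fin n → ℕ)) (p d : ℕ) :
    hM L M p d = hM K M p d := by
  simp only [Free.hM, rkM_baseChange K L]

end Vale.Agent.P200.Betti.Pow
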