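import Mathlib

/-!
The coefficients of a distraction `∏ (y + β_k u x)`, where `u` acts on the scalars by an automorphism
`σ`, and the choice of the `β_k` for a prescribed power.
-/

namespace Vale.Agent.P200.Betti.Pow

open Finset

/-- A sequence of coefficients together with the twist they carry. -/
structure Tw (F : Type*) [Field F] where
  /-- The twist. -/
  σ : RingAut F
  /-- The coefficients. -/
  β : ℕ → F

variable {F : Type*} [Field F]

/-- The coefficient of `x ^ j y ^ (t - j)` in the product of the first `t` factors, `u ^ j` left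
out. -/
def cf (r : Tw F) : ℕ → ℕ → F
  | _, 0 => 1
  | 0, _ + 1 => 0
  | t + 1, j + 1 => cf r t (j + 1) + r.β t * r.σ (cf r t j)

/-- The coefficient as it acts on a position of weight `k`. -/
def coef (r : Tw F) (k t j : ℕ) : F := (r.σ ^ k) (cf r t j)

/-- The single factor as it acts on a position of weight `k`. -/
def wgt (r : Tw F) (k t : ℕ) : F := (r.σ ^ k) (r.β t)

lemma cf_zero_right (r : Tw F) : ∀ t, cf r t 0 = 1
  | 0 => by rw [cf]
  | _ + 1 => by rw [cf]

lemma cf_succ_succ (r : Tw F) (t j : ℕ) :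
    cf r (t + 1) (j + 1) = cf r t (j + 1) + r.β t * r.σ (cf r t j) := by
  rw [cf]

lemma cf_eq_zero (r : Tw F) : ∀ {t j : ℕ}, t < j → cf r t j = 0
  | 0, j + 1, _ => by rw [cf]
  | t + 1, j + 1, h => by
    rw [cf_succ_succ, cf_eq_zero r (by omega), cf_eq_zero r (by omega), map_zero, mul_zero,
      add_zero]
  | _, 0, h => absurd h (by omega)

lemma coef_zero_right (r : Tw F) (k t : ℕ) : coef r k t 0 = 1 := by
  rw [coef, cf_zero_right, map_one]

lemma coef_eq_zero (r : Tw F) (k : ℕ) {t j : ℕ} (h : t < j) : coef r k t j = 0 := by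
  rw [coef, cf_eq_zero r h, map_zero]

lemma coef_ne_zero {r : Tw F} {k t j : ℕ} : coef r k t j ≠ 0 ↔ cf r t j ≠ 0 := by
  rw [coef]
  exact ((r.σ ^ k).map_eq_zero_iff).not

lemma coef_succ_succ (r : Tw F) (k t j : ℕ) :
    coef r k (t + 1) (j + 1) = coef r k t (j + 1) + wgt r k t * coef r (k + 1) t j := by
  rw [coef, cf_succ_succ, map_add, map_mul, coef, coef, wgt, pow_succ]
  rfl

lemma cf_congr {r r' : Tw F} (hσ : r.σ = r'.σ) :
    ∀ {t : ℕ}, (∀ k, k < t → r.β k = r'.β k) → ∀ j, cf r t j = cf r' t j
  | 0, _, 0 => by rw [cf, cf]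
  | 0, _, _ + 1 => by rw [cf, cf]
  | t + 1, _, 0 => by rw [cf, cf]
  | t + 1, h, j + 1 => by
    rw [cf_succ_succ, cf_succ_succ, cf_congr hσ (fun k hk => h k (by omega)) (j + 1),
      cf_congr hσ (fun k hk => h k (by omega)) j, h t (by omega), hσ]

/-- Coefficients suited to a variable whose power `a` is given: the product of `a` factors has
only its two extreme terms, the sequence has period `a`, and no shorter product lacks the next to
the first term. -/
structure Fits (r : Tw F) (a : ℕ) : Prop where
  period : ∀ k, r.β (k + a) = r.β k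
  middle : ∀ j, 0 < j → j < a → cf r a j = 0
  partial_ne : ∀ t, 0 < t → t < a → cf r t 1 ≠ 0

lemma Fits.cf_shift {r : Tw F} {a : ℕ} (h : Fits r a) :
    ∀ {t j : ℕ}, a ≤ t → j < a → cf r t j = cf r (t - a) j := by
  intro t j ht
  induction t, ht using Nat.le_induction generalizing j with
  | base =>
    intro hj
    rw [Nat.sub_self]
    cases j with
    | zero => rw [cf_zero_right, cf_zero_right]
    | succ j => rw [h.middle _ j.succ_pos hj, cf_eq_zero r j.succ_pos]
  | succ t ht ih =>
    intro hj
    rw [show t + 1 - a = t - a + 1 by omega]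
    cases j with
    | zero => rw [cf_zero_right, cf_zero_right]
    | succ j =>
      rw [cf_succ_succ, cf_succ_succ, ih hj, ih (by omega),
        show r.β t = r.β (t - a) by rw [← h.period (t - a), Nat.sub_add_cancel ht]]

/-- Coefficients suited to a free variable. -/
lemma exists_free : ∃ r : Tw F, ∀ t, 0 < t → cf r t 1 ≠ 0 := by
  refine ⟨⟨1, fun k => if k = 0 then 1 else 0⟩, fun t ht => ?_⟩
  suffices h : cf (⟨1, fun k => if k = 0 then 1 else 0⟩ : Tw F) t 1 = 1 by
    rw [h]; exact one_ne_zero
  induction t with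
  | zero => omega
  | succ t ih =>
    rw [cf_succ_succ, cf_zero_right, map_one, mul_one]
    rcases Nat.eq_zero_or_pos t with rfl | h
    · simp [cf_eq_zero]
    · rw [ih h]
      simp [h.ne']

section Construct

variable (σ : RingAut F)

/-- The operator `∑ c_j σ ^ j` of the first `t` factors. -/
def op (r : Tw F) (t : ℕ) (w : F) : F := ∑ j ∈ range (t + 1), cf r t j * (r.σ ^ j) w

lemma op_succ (r : Tw F) (t : ℕ) (w : F) :
    op r (t + 1) w = op r t w + r.β t * r.σ (op r t w) := by
  have h1 : ∀ j, r.σ ((r.σ ^ j) w) = (r.σ ^ (j + 1)) w := fun j => by rw [pow_succ']; rfl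
  have h2 : op r t w =
      (∑ j ∈ range (t + 1), cf r t (j + 1) * (r.σ ^ (j + 1)) w) + cf r t 0 * (r.σ ^ 0) w := by
    rw [op, ← sum_range_succ' (fun j => cf r t j * (r.σ ^ j) w), sum_range_succ _ (t + 1),
      cf_eq_zero r (Nat.lt_succ_self t), zero_mul, add_zero]
  have h3 : r.σ (op r t w) = ∑ j ∈ range (t + 1), r.σ (cf r t j) * (r.σ ^ (j + 1)) w := by
    rw [op, map_sum]
    exact sum_congr rfl fun j _ => by rw [map_mul, h1]
  rw [h3, h2, op, sum_range_succ', cf_zero_right, cf_zero_right, mul_sum]
  have h4 : ∑ j ∈ range (t + 1), cf r (t + 1) (j + 1) * (r.σ ^ (j + 1)) w =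
      ∑ j ∈ range (t + 1), cf r t (j + 1) * (r.σ ^ (j + 1)) w +
        ∑ j ∈ range (t + 1), r.β t * (r.σ (cf r t j) * (r.σ ^ (j + 1)) w) := by
    rw [← sum_add_distrib]
    exact sum_congr rfl fun j _ => by rw [cf_succ_succ]; ring
  rw [h4]
  ring

variable {σ}

/-- The powers below `a` of the twist are independent. -/
def Indep (σ : RingAut F) (a : ℕ) : Prop :=
  ∀ c : ℕ → F, (∀ w, ∑ j ∈ range a, c j * (σ ^ j) w = 0) → ∀ j, j < a → c j = 0

lemma indep_of_distinct {a : ℕ} (h : ∀ i j, i < a → j < a → σ ^ i = σ ^ j → i = j) :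
    Indep σ a := by
  intro c hc j hj
  have hli := (linearIndependent_monoidHom F F).comp
    (fun i : Fin a => ((σ ^ (i : ℕ) : RingAut F).toRingHom : F →* F)) (fun i i' e => Fin.ext
      (h i i' i.2 i'.2 (RingEquiv.ext fun w => DFunLike.congr_fun e w)))
  refine Fintype.linearIndependent_iff.1 hli (fun i => c i) ?_ ⟨j, hj⟩
  funext w
  simp only [Finset.sum_apply, Pi.smul_apply, smul_eq_mul, Pi.zero_apply, Function.comp_apply]
  rw [← hc w]
  exact Fin.sum_univ_eq_sum_range (fun j => c j * (σ ^ j) w) a

/-- The factors are chosen one by one, each killing one more element. -/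
lemma exists_factors {a : ℕ} (hind : Indep σ a) : ∀ t, t ≤ a →
    ∃ (β : ℕ → F) (w : ℕ → F), cf ⟨σ, β⟩ t t ≠ 0 ∧
      (∀ s, 0 < s → s ≤ t → s < a → cf ⟨σ, β⟩ s 1 ≠ 0) ∧
      (∀ i, i < t → op ⟨σ, β⟩ t (w i) = 0) ∧
      ∀ d : ℕ → F, (∀ i, i < t → ∑ j ∈ range t, d j * (σ ^ j) (w i) = 0) →
        ∀ j, j < t → d j = 0 := by
  intro t
  induction t with
  | zero =>
    exact fun _ => ⟨fun _ => 0, fun _ => 0, by rw [cf_zero_right]; exact one_ne_zero,
      fun s h1 h2 => by omega, fun i h => by omega, fun d _ j h => by omega⟩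
  | succ t ih =>
    intro ht
    obtain ⟨β, w, htop, hne, hker, hindw⟩ := ih (by omega)
    obtain ⟨v, hb0, hb1⟩ : ∃ v, op ⟨σ, β⟩ t v ≠ 0 ∧
        (t + 1 < a → op ⟨σ, β⟩ t v ≠ cf ⟨σ, β⟩ t 1 * σ (op ⟨σ, β⟩ t v)) := by
      by_cases hta : t + 1 < a
      · by_contra hno
        simp only [not_exists, not_and, Classical.not_imp] at hno
        set c₁ := cf (⟨σ, β⟩ : Tw F) t 1
        set ρ : Tw F := ⟨σ, Function.update β t (-c₁)⟩
        have hρ : ∀ j, cf ρ t j = cf (⟨σ, β⟩ : Tw F) t j :=
          cf_congr (r := ρ) (r' := ⟨σ, β⟩) rfl fun k hk => Function.update_of_ne hk.ne _ _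
        have hop : ∀ z, op ρ t z = op (⟨σ, β⟩ : Tw F) t z := fun z => by simp only [op, hρ]; rfl
        have hzero : ∀ z, ∑ j ∈ range a, cf ρ (t + 1) j * (σ ^ j) z = 0 := by
          intro z
          rw [← sum_subset (range_mono (show t + 1 + 1 ≤ a by omega)) fun j _ hj => by
            rw [cf_eq_zero ρ (by simpa using hj), zero_mul]]
          show op ρ (t + 1) z = 0
          rw [op_succ, hop, show ρ.β t = -c₁ by simp [ρ]]
          show _ + -c₁ * σ _ = 0
          by_cases hz : op (⟨σ, β⟩ : Tw F) t z = 0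
          · simp [hz]
          · have := hno z hz
            simp only [not_not] at this
            rw [neg_mul, ← this.2, add_neg_cancel]
        exact one_ne_zero ((cf_zero_right ρ _).symm.trans (hind _ hzero 0 (by omega)))
      · by_contra hno
        simp only [not_exists, not_and] at hno
        have hzero : ∀ z, ∑ j ∈ range a, cf (⟨σ, β⟩ : Tw F) t j * (σ ^ j) z = 0 := fun z => by
          rw [← sum_subset (range_mono (show t + 1 ≤ a by omega)) fun j _ hj => by
            rw [cf_eq_zero _ (by simpa using hj), zero_mul]]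
          by_contra hz
          exact (hno z hz) (fun h => absurd h hta)
        exact one_ne_zero ((cf_zero_right (⟨σ, β⟩ : Tw F) t).symm.trans
          (hind _ hzero 0 (by omega)))
    set b := op (⟨σ, β⟩ : Tw F) t v with hb
    have hσb : σ b ≠ 0 := fun h => hb0 ((σ.map_eq_zero_iff).1 h)
    set β' := Function.update β t (-(b / σ b)) with hβ'
    have hβt : (⟨σ, β'⟩ : Tw F).β t = -(b / σ b) := Function.update_self ..
    have hcf : ∀ s, s ≤ t → ∀ j, cf (⟨σ, β'⟩ : Tw F) s j = cf (⟨σ, β⟩ : Tw F) s j := fun s hs =>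
      cf_congr (r := ⟨σ, β'⟩) (r' := ⟨σ, β⟩) rfl fun k hk => Function.update_of_ne (show k ≠ t by omega) _ _
    have hop : ∀ z, op (⟨σ, β'⟩ : Tw F) (t + 1) z =
        op (⟨σ, β⟩ : Tw F) t z + -(b / σ b) * σ (op (⟨σ, β⟩ : Tw F) t z) := fun z => by
      rw [op_succ, show op (⟨σ, β'⟩ : Tw F) t z = op (⟨σ, β⟩ : Tw F) t z by
        simp only [op, hcf t le_rfl], hβt]
    refine ⟨β', Function.update w t v, ?_, fun s h1 h2 h3 => ?_, fun i hi => ?_,
      fun d hd j hj => ?_⟩
    · rw [cf_succ_succ, hcf t le_rfl, hcf t le_rfl, cf_eq_zero _ (Nat.lt_succ_self t), zero_add,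
        hβt]
      exact mul_ne_zero (neg_ne_zero.2 (div_ne_zero hb0 hσb))
        fun h => htop ((σ.map_eq_zero_iff).1 h)
    · rcases Nat.lt_or_eq_of_le h2 with h2 | rfl
      · rw [hcf s (by omega)]
        exact hne s h1 (by omega) h3
      · rw [cf_succ_succ, hcf t le_rfl, hcf t le_rfl, cf_zero_right, map_one, mul_one, hβt]
        intro h
        refine hb1 h3 ?_
        show b = _ * σ b
        rw [add_neg_eq_zero] at h
        rw [h, div_mul_cancel₀ b hσb]
    · rw [hop]
      rcases Nat.lt_succ_iff_lt_or_eq.1 hi with hi | rfl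
      · rw [Function.update_of_ne hi.ne, hker i hi, map_zero, mul_zero, add_zero]
      · rw [Function.update_self, ← hb]
        field_simp
        ring
    · set lam := d t / cf (⟨σ, β⟩ : Tw F) t t with hlam
      have hlow : ∀ j, j < t → d j - lam * cf (⟨σ, β⟩ : Tw F) t j = 0 := by
        refine hindw _ fun i hi => ?_
        have h1 := hd i (by omega)
        have h2 := hker i hi
        rw [Function.update_of_ne hi.ne] at h1
        rw [op] at h2
        rw [sum_range_succ] at h1 h2
        simp only [sub_mul, mul_assoc, sum_sub_distrib, ← mul_sum]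
        have h3 : lam * cf (⟨σ, β⟩ : Tw F) t t = d t := div_mul_cancel₀ _ htop
        linear_combination h1 - lam * h2 + (σ ^ t) (w i) * h3
      have hall : ∀ j, j < t + 1 → d j = lam * cf (⟨σ, β⟩ : Tw F) t j := fun j hj => by
        rcases Nat.lt_succ_iff_lt_or_eq.1 hj with hj | rfl
        · exact sub_eq_zero.1 (hlow j hj)
        · exact (div_mul_cancel₀ _ htop).symm
      have h1 := hd t (by omega)
      rw [Function.update_self, sum_congr rfl (fun k hk => by
        rw [hall k (mem_range.1 hk), mul_assoc] :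
          ∀ k ∈ range (t + 1), d k * (σ ^ k) v = lam * (cf (⟨σ, β⟩ : Tw F) t k * (σ ^ k) v)),
        ← mul_sum] at h1
      have hl : lam = 0 := (mul_eq_zero.1 h1).resolve_right hb0
      rw [hall j hj, hl, zero_mul]

/-- Suited coefficients for a twist of order `a` with independent powers. -/
theorem exists_fits_of_indep {a : ℕ} (ha : 0 < a) (hσ : ∀ w, (σ ^ a) w = w)
    (hind : Indep σ a) : ∃ r : Tw F, Fits r a := by
  obtain ⟨β, w, -, hne, hker, hindw⟩ := exists_factors hind a le_rfl
  set r₀ : Tw F := ⟨σ, β⟩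
  set r : Tw F := ⟨σ, fun k => β (k % a)⟩
  have hcf : ∀ s, s ≤ a → ∀ j, cf r s j = cf r₀ s j := fun s hs =>
    cf_congr (r := r) (r' := r₀) rfl fun k hk => by
      show β (k % a) = β k
      rw [Nat.mod_eq_of_lt (show k < a by omega)]
  refine ⟨r, fun k => by simp [r], fun j h0 hj => ?_, fun t h0 ht => ?_⟩
  · have h := hindw (fun j => if j = 0 then cf r₀ a 0 + cf r₀ a a else cf r₀ a j) (fun i hi => ?_)
      j hj
    · rw [if_neg h0.ne'] at h
      rw [hcf a le_rfl, h]
    · have h2 := hker i hi
      rw [op, sum_range_succ] at h2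
      rw [← h2]
      obtain ⟨b, rfl⟩ := Nat.exists_eq_add_of_le' ha
      rw [sum_range_succ' (fun j => cf r₀ (b + 1) j * _),
        sum_range_succ' (fun j => (if j = 0 then _ else _) * _)]
      simp only [Nat.succ_ne_zero, if_false, if_true, pow_zero]
      show _ = _ + cf r₀ (b + 1) (b + 1) * (σ ^ (b + 1)) (w i)
      rw [hσ]
      show _ + _ * w i = _ + _ * w i + _ * w i
      ring
  · rw [hcf t ht.le]
    exact hne t h0 ht.le ht

end Construct

universe u

open Fin.NatCast in
/-- Every field extends to one with a twist of order `a`, so with suited coefficients. -/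
theorem exists_fits_extension (K : Type u) [Field K] {a : ℕ} (ha : 0 < a) :
    ∃ (L : Type u) (_ : Field L) (_ : Algebra K L) (r : Tw L), Fits r a := by
  have : NeZero a := ⟨ha.ne'⟩
  let P := MvPolynomial (Fin a) K
  let L := FractionRing P
  let e : P ≃+* P := (MvPolynomial.renameEquiv K (Equiv.addRight (1 : Fin a))).toRingEquiv
  let σ : RingAut L := IsFractionRing.ringEquivOfRingEquiv e
  have hpow : ∀ (k : ℕ) (i : Fin a), (σ ^ k) (algebraMap P L (MvPolynomial.X i)) =
      algebraMap P L (MvPolynomial.X (i + (k : Fin a))) := by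
    intro k
    induction k with
    | zero => intro i; simp
    | succ k ih =>
      intro i
      rw [pow_succ', RingAut.mul_apply, ih]
      show IsFractionRing.ringEquivOfRingEquiv e _ = _
      rw [IsFractionRing.ringEquivOfRingEquiv_algebraMap]
      congr 1
      show MvPolynomial.rename _ (MvPolynomial.X _) = _
      rw [MvPolynomial.rename_X, Equiv.coe_addRight, Nat.cast_add, Nat.cast_one]
      simp only [add_assoc]
  have hdist : ∀ i j, i < a → j < a → σ ^ i = σ ^ j → i = j := by
    intro i j hi hj he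
    have h := DFunLike.congr_fun he (algebraMap P L (MvPolynomial.X 0))
    rw [hpow, hpow] at h
    have h' := MvPolynomial.X_injective (IsFractionRing.injective P L h)
    simp only [zero_add] at h'
    have := congrArg Fin.val h'
    rwa [Fin.val_natCast, Fin.val_natCast, Nat.mod_eq_of_lt hi, Nat.mod_eq_of_lt hj] at this
  have hfix : ∀ w, (σ ^ a) w = w := by
    have : ((σ ^ a : RingAut L).toRingHom.comp (algebraMap P L)) = algebraMap P L := by
      refine MvPolynomial.ringHom_ext (fun c => ?_) (fun i => ?_)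
      · have hC : ∀ k : ℕ, (σ ^ k) (algebraMap P L (MvPolynomial.C c)) =
            algebraMap P L (MvPolynomial.C c) := by
          intro k
          induction k with
          | zero => simp
          | succ k ih =>
            rw [pow_succ', RingAut.mul_apply, ih]
            show IsFractionRing.ringEquivOfRingEquiv e _ = _
            rw [IsFractionRing.ringEquivOfRingEquiv_algebraMap]
            congr 1
            exact MvPolynomial.rename_C _ _
        exact hC a
      · show (σ ^ a) _ = _
        rw [hpow, Fin.natCast_self, add_zero]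
    intro w
    have h2 : (σ ^ a : RingAut L).toRingHom = RingHom.id L :=
      IsLocalization.ringHom_ext (nonZeroDivisors P) (this.trans (RingHom.id_comp _).symm)
    exact RingHom.congr_fun h2 w
  obtain ⟨r, hr⟩ := exists_fits_of_indep ha hfix (indep_of_distinct hdist)
  exact ⟨L, inferInstance, inferInstance, r, hr⟩

end Vale.Agent.P200.Betti.Pow
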