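import Vale.Agent.P200.Betti.Pow.Monos

/-!
Repeated distraction reaches stability in the last variable without lowering any Betti number.
-/

namespace Vale.Agent.P200.Betti.Pow

open Finset Module
open Vale.Agent.P200.Betti.Free (Pt dl dd cells mons mem_cells mem_mons sp mem_sp unit'
  unit'_self unit'_of_ne unit'_mem_sp keep keep_apply inCells inCells_subset card_inCells IsUp num sh
  sum_sh finrank_sp finrank_le_of_lead rkM hM full full_le finrank_full wt wt_eq_of_dd_unit sp_mono
  card_outCells outCells dd_mem)

variable {n : ℕ} {F : Type*} [Field F] {r : Tw F} {x : Fin (n + 1)}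
  {M : Set (Fin (n + 1) → ℕ)} (hx : x ≠ Fin.last n)

include hx in
lemma phi_mem {p d : ℕ} {f : Pt (n + 1) → F} (hf : f ∈ sp F (cells (n + 1) p d)) :
    phi F r x f ∈ sp F (cells (n + 1) p d) := by
  refine spread_mem hx (Submodule.add_mem _ hf (mem_sp.2 fun z hz => ?_))
  rw [fix'_apply]
  split_ifs with h
  · rw [mem_sp.1 hf, mul_zero, mul_zero]
    intro h'
    obtain ⟨h1, h2⟩ := mem_cells.1 h'
    refine hz (mem_cells.2 ⟨?_, h2⟩)
    rwa [card_insert_of_notMem (fun h'' => h.2 (mem_of_mem_erase h'')), card_erase_add_one h.1] at h1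
  · rfl

lemma fix'_fix' (f : Pt (n + 1) → F) : fix' F r x (fix' F r x f) = 0 := by
  funext z
  rw [fix'_apply, Pi.zero_apply]
  split_ifs
  · rw [fix'_apply, if_neg fun h => h.2 (mem_insert_self _ _), mul_zero, mul_zero]
  · rfl

lemma fix'_mem_in {p d : ℕ} {f : Pt (n + 1) → F} (hf : f ∈ sp F (inCells M p d)) :
    fix' F r x f ∈ sp F (inCells M p d) := by
  classical
  refine mem_sp.2 fun z hz => ?_
  rw [fix'_apply]
  split_ifs with h
  · rw [mem_sp.1 hf, mul_zero, mul_zero]
    intro h'
    obtain ⟨h1, hm⟩ := mem_filter.1 h'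
    obtain ⟨h1, h2⟩ := mem_cells.1 h1
    refine hz (mem_filter.2 ⟨mem_cells.2 ⟨?_, h2⟩, hm⟩)
    rwa [card_insert_of_notMem (fun h'' => h.2 (mem_of_mem_erase h'')), card_erase_add_one h.1] at h1
  · rfl

lemma phi_inj {p d : ℕ} {f : Pt (n + 1) → F} (hf : f ∈ sp F (cells (n + 1) p d))
    (h : phi F r x f = 0) : f = 0 := by
  have hfix : f + fix' F r x f ∈ sp F (cells (n + 1) p d) := by
    refine Submodule.add_mem _ hf (mem_sp.2 fun z hz => ?_)
    rw [fix'_apply]
    split_ifs with hh
    · rw [mem_sp.1 hf, mul_zero, mul_zero]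
      intro h'
      obtain ⟨h1, h2⟩ := mem_cells.1 h'
      refine hz (mem_cells.2 ⟨?_, h2⟩)
      rwa [card_insert_of_notMem (fun h'' => hh.2 (mem_of_mem_erase h'')),
        card_erase_add_one hh.1] at h1
    · rfl
  have h0 : f + fix' F r x f = 0 := spread_inj (r := r) (x := x) hfix h
  have h1 := congrArg (fix' F r x) h0
  rw [map_add, fix'_fix', add_zero, map_zero] at h1
  rwa [h1, add_zero] at h0

include hx in
theorem rkM_moved_le (p d : ℕ) : rkM F (moved r x M) (p + 1) d ≤ rkM F M (p + 1) d := by
  classical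
  set G := (full F M p d).map (phi F r x) with hG
  have hGle : G ≤ sp F (cells (n + 1) p (d + 1)) := by
    rintro _ ⟨f, hf, rfl⟩
    exact phi_mem hx (full_le M p d hf)
  have hGdim : finrank F G = finrank F (full F M p d) := by
    rw [hG, ← LinearMap.range_domRestrict]
    exact LinearMap.finrank_range_of_inj ((injective_iff_map_eq_zero _).2 fun g hg =>
      Subtype.ext (phi_inj (full_le M p d g.2) hg))
  have hsurj : (sp F (cells (n + 1) (p + 1) d)).map (phi F r x) =
      sp F (cells (n + 1) (p + 1) d) := by
    refine Submodule.eq_of_le_of_finrank_eq ?_ ?_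
    · rintro _ ⟨f, hf, rfl⟩
      exact phi_mem hx hf
    · rw [← LinearMap.range_domRestrict]
      exact LinearMap.finrank_range_of_inj ((injective_iff_map_eq_zero _).2 fun g hg =>
        Subtype.ext (phi_inj g.2 hg))
  set vs : Set (Pt (n + 1) → F) :=
    (fun z => dd F (unit' F z)) '' (cells (n + 1) (p + 1) d : Set (Pt (n + 1))) ∪
      unit' F '' (inCells (moved r x M) p (d + 1) : Set (Pt (n + 1)))
  have hspan : Submodule.span F vs = full F (moved r x M) p d := by
    rw [Submodule.span_union, full, sp, sp, Submodule.map_span, Set.image_eq_range,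
      Set.image_eq_range, ← Set.range_comp]
    rfl
  have hwit : ∀ g ∈ vs, ∃ f ∈ G, ∃ v, (∀ z, wt z < v → f z = 0) ∧
      keep F (fun z => wt z = v) f = g := by
    rintro g (⟨z, hz, rfl⟩ | ⟨⟨T, b⟩, hz, rfl⟩)
    · refine ⟨dd F (unit' F z), ?_, wt z, fun w hw => ?_, ?_⟩
      · obtain ⟨f, hf, hfz⟩ := hsurj.symm.le (unit'_mem_sp (F := F) hz)
        exact ⟨dd F f, Submodule.mem_sup_left ⟨f, hf, rfl⟩, by rw [← dd_phi hx, hfz]⟩
      · by_contra hne
        exact absurd (wt_eq_of_dd_unit hne) hw.ne
      · funext w
        rw [keep_apply]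
        split_ifs with h
        · rfl
        · by_contra hne
          exact h (wt_eq_of_dd_unit (Ne.symm hne))
    · obtain ⟨hzc, g, hg, hne, hlow⟩ := mem_filter.1 hz
      obtain ⟨hT, hb⟩ := mem_cells.1 hzc
      simp only at hb hg hT
      rw [hb] at hg
      -- the fibre through the monomial
      set Z : Pt (n + 1) → Prop := fun w => ∀ i, i ≠ x → i ≠ Fin.last n → w.2 i = b i
      have hcomm : spread F r x (keep F Z g) = keep F Z (spread F r x g) := by
        funext w
        rw [keep_apply, spread_apply, spread_apply]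
        have hZ : ∀ j, Z (w.1, back x w.2 j) ↔ Z w := fun j =>
          forall_congr' fun i => imp_congr_right fun h1 => imp_congr_right fun h2 => by
            simp [back, h1, h2]
        split_ifs with h
        · exact sum_congr rfl fun j _ => by rw [keep_apply, if_pos ((hZ j).2 h)]
        · exact sum_eq_zero fun j _ => by rw [keep_apply, if_neg (h ∘ (hZ j).1), mul_zero]
      have hkg : keep F Z g ∈ sp F (inCells M 0 (d + 1)) := mem_sp.2 fun w hw => by
        rw [keep_apply, mem_sp.1 hg w hw, ite_self]
      set s := spread F r x g (∅, b)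
      have hu : place r x T (s⁻¹ • keep F Z g) ∈ sp F (inCells M p (d + 1)) :=
        hT ▸ place_mem (Submodule.smul_mem _ _ hkg)
      refine ⟨spread F r x (place r x T (s⁻¹ • keep F Z g)), ?_, wt (T, b), fun w hw => ?_, ?_⟩
      · refine ⟨place r x T (s⁻¹ • keep F Z g) - fix' F r x (place r x T (s⁻¹ • keep F Z g)),
          Submodule.mem_sup_right (Submodule.sub_mem _ hu (fix'_mem_in hu)), ?_⟩
        rw [phi, LinearMap.comp_apply, LinearMap.add_apply, LinearMap.id_apply, map_sub (fix' F r x),
          fix'_fix', sub_zero, sub_add_cancel]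
      · rw [spread_place, place_apply, map_smul, Pi.smul_apply, hcomm, keep_apply, smul_eq_mul]
        split_ifs with h1 h2
        · rw [hlow, mul_zero, map_zero]
          simp only [wt, h1] at hw
          show w.2 (Fin.last n) < b (Fin.last n)
          omega
        · rw [mul_zero, map_zero]
        · rfl
      · funext w
        rw [keep_apply, spread_place, place_apply, map_smul, Pi.smul_apply, hcomm, keep_apply,
          smul_eq_mul]
        by_cases hwz : w = (T, b)
        · subst hwz
          rw [if_pos rfl, if_pos rfl, if_pos (show Z (∅, b) from fun i _ _ => rfl),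
            inv_mul_cancel₀ hne, map_one]
          exact (unit'_self _).symm
        · rw [unit'_of_ne hwz]
          by_cases h1 : wt w = wt (T, b)
          swap
          · rw [if_neg h1]
          rw [if_pos h1]
          by_cases h2 : w.1 = T
          swap
          · rw [if_neg h2]
          rw [if_pos h2]
          have h1' : w.2 (Fin.last n) = b (Fin.last n) := by
            simp only [wt, h2] at h1
            omega
          by_cases h3 : Z (∅, w.2)
          swap
          · rw [if_neg h3, mul_zero, map_zero]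
          rw [if_pos h3]
          have hgsp : spread F r x g ∈ sp F (cells (n + 1) 0 (d + 1)) :=
            spread_mem hx (sp_mono (inCells_subset _ _ _) hg)
          by_cases hwc : ((∅ : Finset (Fin (n + 1))), w.2) ∈ cells (n + 1) 0 (d + 1)
          · exfalso
            obtain ⟨-, hw2⟩ := mem_cells.1 hwc
            refine hwz (Prod.ext h2 (funext fun i => ?_))
            by_cases hi : i = Fin.last n
            · exact hi ▸ h1'
            by_cases hix : i = x
            swap
            · exact h3 i hix hi
            subst hix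
            have hs : ∑ l ∈ univ.erase i, w.2 l = ∑ l ∈ univ.erase i, b l := by
              refine sum_congr rfl fun l hl => ?_
              by_cases hl' : l = Fin.last n
              · exact hl' ▸ h1'
              · exact h3 l (ne_of_mem_erase hl) hl'
            have e1 := add_sum_erase univ w.2 (mem_univ i)
            have e2 := add_sum_erase univ b (mem_univ i)
            simp only at hw2
            show w.2 i = b i
            omega
          · rw [mem_sp.1 hgsp _ hwc, mul_zero, map_zero]
  have hle := finrank_le_of_lead hGle wt vs hwit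
  rw [hspan, hGdim, finrank_full, finrank_full, card_inCells, card_inCells, num_moved hx] at hle
  omega

include hx in
theorem hM_le_moved (p d : ℕ) : hM F M p d ≤ hM F (moved r x M) p d := by
  have hr : ∀ q e, rkM F (moved r x M) q e ≤ rkM F M q e := by
    rintro (_ | q) e
    · exact le_rfl
    · exact rkM_moved_le hx q e
  have hc : (outCells (moved r x M) p d).card = (outCells M p d).card := by
    rw [card_outCells, card_outCells, num_moved hx]
  have h1 := hr p d
  have h2 : (if d = 0 then 0 else rkM F (moved r x M) (p + 1) (d - 1)) ≤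
      (if d = 0 then 0 else rkM F M (p + 1) (d - 1)) := by
    split_ifs
    · exact le_rfl
    · exact hr _ _
  unfold hM
  omega

open Classical in
/-- The cells of `M` in a degree with last exponent at least `v`. -/
noncomputable def high (M : Set (Fin (n + 1) → ℕ)) (d v : ℕ) : Finset (Pt (n + 1)) :=
  (inCells M 0 d).filter fun z => v ≤ z.2 (Fin.last n)

lemma mem_high {d v : ℕ} {z : Pt (n + 1)} :
    z ∈ high M d v ↔ z ∈ inCells M 0 d ∧ v ≤ z.2 (Fin.last n) := by
  classical exact mem_filter

/-- Stability below `q` in the last variable: one unit may move to any other variable. -/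
def StabBelow (M : Set (Fin (n + 1) → ℕ)) (d q : ℕ) : Prop :=
  ∀ b ∈ M, ∑ i, b i = d → 1 ≤ b (Fin.last n) → b (Fin.last n) < q →
    ∀ x, x ≠ Fin.last n → sh x b 1 ∈ M

include hx in
/-- High last exponents are not more frequent, and less where the move applies. -/
lemma card_high_moved (d v : ℕ) :
    (high (moved r x M) d v).card ≤ (high M d v).card ∧
    ∀ b ∈ M, ∑ i, b i = d → b (Fin.last n) = v → 1 ≤ v → sh x b 1 ∉ M → cf r v 1 ≠ 0 →
      (high (moved r x M) d v).card < (high M d v).card := by
  classical
  set U : Submodule F (Pt (n + 1) → F) :=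
    sp F (inCells M 0 d) ⊓ LinearMap.ker ((keep F fun z => z.2 (Fin.last n) < v) ∘ₗ spread F r x)
  set G := U.map (spread F r x)
  have hUmem : ∀ g ∈ U, ∀ z : Pt (n + 1), z.2 (Fin.last n) < v → spread F r x g z = 0 := by
    intro g hg z hz
    have := congrFun (LinearMap.mem_ker.1 hg.2) z
    simpa [keep_apply, hz] using this
  have hUfin : FiniteDimensional F U := Submodule.finiteDimensional_of_le inf_le_left
  have hG : G ≤ sp F (cells (n + 1) 0 d) := by
    rintro _ ⟨g, hg, rfl⟩
    exact spread_mem hx (sp_mono (inCells_subset _ _ _) hg.1)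
  -- the lowest parts
  have hlow : (high (moved r x M) d v).card ≤ finrank F G := by
    rw [← finrank_sp (F := F) (high (moved r x M) d v)]
    refine finrank_le_of_lead hG (fun z => z.2 (Fin.last n)) _ ?_
    rintro _ ⟨⟨⟨T, b⟩, hz⟩, rfl⟩
    obtain ⟨hz', hbv⟩ := mem_high.1 hz
    obtain ⟨hc, g, hg, hne, hl⟩ := mem_filter.1 hz'
    obtain ⟨hT, hb⟩ := mem_cells.1 hc
    obtain rfl : T = ∅ := card_eq_zero.1 hT
    simp only at hb hbv hg
    rw [hb] at hg
    set Z : Pt (n + 1) → Prop := fun w => ∀ i, i ≠ x → i ≠ Fin.last n → w.2 i = b i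
    have hcomm : spread F r x (keep F Z g) = keep F Z (spread F r x g) := by
      funext w
      rw [keep_apply, spread_apply, spread_apply]
      have hZ : ∀ j, Z (w.1, back x w.2 j) ↔ Z w := fun j =>
        forall_congr' fun i => imp_congr_right fun h1 => imp_congr_right fun h2 => by
          simp [back, h1, h2]
      split_ifs with h
      · exact sum_congr rfl fun j _ => by rw [keep_apply, if_pos ((hZ j).2 h)]
      · exact sum_eq_zero fun j _ => by rw [keep_apply, if_neg (h ∘ (hZ j).1), mul_zero]
    set s := spread F r x g (∅, b)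
    set h := s⁻¹ • keep F Z g
    have hh : h ∈ sp F (inCells M 0 d) :=
      Submodule.smul_mem _ _ (mem_sp.2 fun w hw => by rw [keep_apply, mem_sp.1 hg w hw, ite_self])
    have hval : ∀ w, spread F r x h w = s⁻¹ * if Z w then spread F r x g w else 0 := fun w => by
      rw [map_smul, Pi.smul_apply, hcomm, keep_apply, smul_eq_mul]
      congr
    have hzero : ∀ w : Pt (n + 1), w.2 (Fin.last n) < b (Fin.last n) →
        spread F r x g w = 0 := by
      intro w hw
      by_cases hwc : w ∈ cells (n + 1) 0 d
      · rw [show w = (∅, w.2) from Prod.ext (card_eq_zero.1 (mem_cells.1 hwc).1) rfl]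
        exact hl _ hw
      · exact mem_sp.1 (spread_mem hx (sp_mono (inCells_subset _ _ _) hg)) w hwc
    refine ⟨spread F r x h, ⟨h, ⟨hh, LinearMap.mem_ker.2 (funext fun w => ?_)⟩, rfl⟩,
      b (Fin.last n), fun w hw => ?_, funext fun w => ?_⟩
    · rw [LinearMap.comp_apply, keep_apply, Pi.zero_apply, hval]
      split_ifs with h1 h2
      · rw [hzero w (by omega), mul_zero]
      · rw [mul_zero]
      · rfl
    · rw [hval]
      split_ifs
      · rw [hzero w hw, mul_zero]
      · rw [mul_zero]
    · rw [keep_apply, hval]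
      show _ = unit' F (∅, b) w
      by_cases hwz : w = (∅, b)
      · subst hwz
        rw [if_pos rfl, if_pos (show Z (∅, b) from fun i _ _ => rfl), inv_mul_cancel₀ hne,
          unit'_self]
      · rw [unit'_of_ne hwz]
        by_cases h1 : w.2 (Fin.last n) = b (Fin.last n)
        swap
        · rw [if_neg h1]
        rw [if_pos h1]
        by_cases h2 : Z w
        swap
        · rw [if_neg h2, mul_zero]
        rw [if_pos h2]
        by_cases hwc : w ∈ cells (n + 1) 0 d
        · exfalso
          obtain ⟨hw1, hw2⟩ := mem_cells.1 hwc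
          refine hwz (Prod.ext (card_eq_zero.1 hw1) (funext fun i => ?_))
          by_cases hi : i = Fin.last n
          · exact hi ▸ h1
          by_cases hix : i = x
          swap
          · exact h2 i hix hi
          subst hix
          have hs : ∑ l ∈ univ.erase i, w.2 l = ∑ l ∈ univ.erase i, b l := by
            refine sum_congr rfl fun l hl => ?_
            by_cases hl' : l = Fin.last n
            · exact hl' ▸ h1
            · exact h2 l (ne_of_mem_erase hl) hl'
          have e1 := add_sum_erase univ w.2 (mem_univ i)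
          have e2 := add_sum_erase univ b (mem_univ i)
          show w.2 i = b i
          omega
        · rw [mem_sp.1 (spread_mem hx (sp_mono (inCells_subset _ _ _) hg)) w hwc, mul_zero]
  -- the high part determines a member
  set R : (Pt (n + 1) → F) →ₗ[F] (Pt (n + 1) → F) := keep F fun z => v ≤ z.2 (Fin.last n)
  have hinj : ∀ g ∈ U, R g = 0 → g = 0 := by
    intro g hg hR
    have hhigh : ∀ w : Pt (n + 1), v ≤ w.2 (Fin.last n) → g w = 0 := fun w hw => by
      have := congrFun hR w
      simpa [R, keep_apply, hw] using this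
    refine spread_inj (r := r) (x := x) (sp_mono (inCells_subset _ _ _) hg.1) (funext fun w => ?_)
    by_cases hw : w.2 (Fin.last n) < v
    · exact hUmem g hg w hw
    · rw [spread_apply]
      exact sum_eq_zero fun j _ => by
        rw [hhigh _ (by simp only [back_last]; omega), mul_zero]
  have hRle : U.map R ≤ sp F (high M d v) := by
    rintro _ ⟨g, hg, rfl⟩
    refine mem_sp.2 fun w hw => ?_
    simp only [R, keep_apply]
    split_ifs with h
    · exact mem_sp.1 hg.1 w fun h' => hw (mem_high.2 ⟨h', h⟩)
    · rfl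
  have hGle : finrank F G ≤ finrank F (U.map R) := by
    refine (Submodule.finrank_map_le _ _).trans (le_of_eq ?_)
    rw [← LinearMap.range_domRestrict]
    exact (LinearMap.finrank_range_of_inj ((injective_iff_map_eq_zero _).2 fun g hg =>
      Subtype.ext (hinj g g.2 hg))).symm
  refine ⟨hlow.trans (hGle.trans ((Submodule.finrank_mono hRle).trans (finrank_sp _).le)), ?_⟩
  intro b hb hbd hbv hv hnot hcf
  refine lt_of_le_of_lt (hlow.trans hGle) ?_
  rw [← finrank_sp (F := F) (high M d v)]
  refine Submodule.finrank_lt_finrank_of_lt (lt_of_le_of_ne hRle fun he => ?_)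
  have hbhigh : ((∅ : Finset (Fin (n + 1))), b) ∈ high M d v :=
    mem_high.2 ⟨mem_filter.2 ⟨mem_cells.2 ⟨rfl, hbd⟩, hb⟩, hbv.ge⟩
  obtain ⟨g, hg, hgb⟩ := he ▸ unit'_mem_sp (F := F) hbhigh
  have hval : ∀ w : Pt (n + 1), v ≤ w.2 (Fin.last n) → g w = unit' F (∅, b) w := fun w hw => by
    have := congrFun hgb w
    simpa [R, keep_apply, hw] using this
  set w : Pt (n + 1) := (∅, sh x b 1)
  have hwy : w.2 (Fin.last n) = v - 1 := by simp [w, sh, hbv]
  have hwx : w.2 x = b x + 1 := by simp [w, sh, hx]
  have hzero := hUmem g hg w (by omega)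
  apply (coef_ne_zero (k := w.2 x - 1 + pos x w.1)).2 hcf
  rw [← hzero, spread_apply, sum_eq_single 1]
  · have hback : back x w.2 1 = b := by
      funext i
      by_cases h1 : i = Fin.last n
      · subst h1; simp [back, w, sh]; omega
      by_cases h2 : i = x
      · subst h2; simp [back, w, sh, h1]
      · simp [back, w, sh, h1, h2]
    rw [hback, hval _ (by simp [hbv]), unit'_self, mul_one, hwy, show v - 1 + 1 = v by omega]
  · intro j hj hj1
    rcases Nat.eq_zero_or_pos j with rfl | hjp
    · rw [back_zero]
      have : g w = 0 := mem_sp.1 hg.1 w fun h => hnot (mem_filter.1 h).2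
      rw [show (w.1, w.2) = w from rfl, this, mul_zero]
    · rw [hval _ (by simp only [back_last]; omega), unit'_of_ne, mul_zero]
      intro e
      have := congrArg (fun z : Pt (n + 1) => z.2 (Fin.last n)) e
      simp only [back_last] at this
      omega
  · exact fun h => absurd (mem_range.2 (by omega)) h

open Classical in
/-- The total last exponent in a degree. -/
noncomputable def mass (M : Set (Fin (n + 1) → ℕ)) (d : ℕ) : ℕ :=
  ∑ v ∈ Icc 1 d, (high M d v).card

include hx in
lemma mass_moved (d : ℕ) : mass (moved r x M) d ≤ mass M d ∧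
    ((∃ b ∈ M, ∑ i, b i = d ∧ 1 ≤ b (Fin.last n) ∧ sh x b 1 ∉ M ∧
      cf r (b (Fin.last n)) 1 ≠ 0) → mass (moved r x M) d < mass M d) := by
  refine ⟨sum_le_sum fun v _ => (card_high_moved hx d v).1, ?_⟩
  rintro ⟨b, hb, hbd, h1, hn, hcf⟩
  refine sum_lt_sum (fun v _ => (card_high_moved hx d v).1) ⟨b (Fin.last n), mem_Icc.2 ⟨h1, ?_⟩,
    (card_high_moved hx d _).2 b hb hbd rfl h1 hn hcf⟩
  rw [← hbd]
  exact single_le_sum (fun i _ => Nat.zero_le (b i)) (mem_univ _)

/-- Stability is reached without lowering any Betti number. -/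
theorem exists_stable (r : Tw F) {a : ℕ → ℕ} {c q : ℕ} (hq : ∀ t, 0 < t → t < q → cf r t 1 ≠ 0)
    (hc : c ≤ n ∨ Fits r (a n) ∧ c = n + 1 ∧ ∀ i, i < n → a i ≤ a n) {M : Set (Fin (n + 1) → ℕ)} (hup : IsUp M)
    (hpow : HasPow a c M) (d e : ℕ) :
    ∃ M' : Set (Fin (n + 1) → ℕ), IsUp M' ∧ HasPow a c M' ∧ (∀ k, num M' k = num M k) ∧
      StabBelow M' d q ∧ StabBelow M' e q ∧ ∀ p k, hM F M p k ≤ hM F M' p k := by
  induction hN : mass M d + mass M e using Nat.strong_induction_on generalizing M with
  | _ N ih =>
    by_cases h : StabBelow M d q ∧ StabBelow M e q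
    · exact ⟨M, hup, hpow, fun _ => rfl, h.1, h.2, fun _ _ => le_rfl⟩
    obtain ⟨k, hk, b, hb, hs, h1, h2, x, hx, hn⟩ : ∃ k, (k = d ∨ k = e) ∧ ∃ b, b ∈ M ∧
        ∑ i, b i = k ∧ 1 ≤ b (Fin.last n) ∧ b (Fin.last n) < q ∧
          ∃ x, x ≠ Fin.last n ∧ sh x b 1 ∉ M := by
      rw [not_and_or] at h
      rcases h with h | h <;> simp only [StabBelow, not_forall] at h <;>
        obtain ⟨b, hb, hs, h1, h2, x, hx, hn⟩ := h
      · exact ⟨d, Or.inl rfl, b, hb, hs, h1, h2, x, hx, hn⟩
      · exact ⟨e, Or.inr rfl, b, hb, hs, h1, h2, x, hx, hn⟩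
    have hlt := (mass_moved hx k).2 ⟨b, hb, hs, h1, hn, hq _ h1 h2⟩
    have hd := (mass_moved (r := r) (M := M) hx d).1
    have he := (mass_moved (r := r) (M := M) hx e).1
    have hlt' : mass (moved r x M) d + mass (moved r x M) e < N := by
      rcases hk with rfl | rfl <;> omega
    have hxn : (x : ℕ) < n := by
      have := Fin.lt_last_iff_ne_last.2 hx
      simpa [Fin.lt_def] using this
    have hc' : c ≤ n ∨ Fits r (a n) ∧ (x : ℕ) < c ∧ a x ≤ a n :=
      hc.imp_right fun h => ⟨h.1, by omega, h.2.2 _ hxn⟩
    obtain ⟨M', g1, g2, g3, g4, g5, g6⟩ :=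
      ih _ hlt' (isUp_moved hx hup) (hasPow_moved hx hpow hc') rfl
    exact ⟨M', g1, g2, fun k => (g3 k).trans (num_moved hx k), g4, g5,
      fun p k => (hM_le_moved hx p k).trans (g6 p k)⟩

end Vale.Agent.P200.Betti.Pow
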