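import Vale.Agent.P200.Betti.Free.Slice
import Vale.Agent.P200.Betti.Pow.Move

/-!
Splitting off a last variable whose `a`-th power lies in the set.
-/

namespace Vale.Agent.P200.Betti.Pow

open Finset Module
open Vale.Agent.P200.Betti.Free (Pt dl dd prj cells mons mem_cells mem_mons sp mem_sp unit'
  unit'_self unit'_of_ne unit'_mem_sp keep keep_apply IsUp num rkM hM outCells card_outCells
  base emb emb_apply emb_injective emb_mem dd_emb prj_emb emb_unit tops mem_tops card_tops topNum
  topNum_le num_le_topNum num_le pc dn lift dn_lift lift_dn sg_dn sg_last sum_sub_dl sub_add_dl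
  add_sub_dl sum_dl prj_apply dd_apply dd_dd dd_mem dd_unit_ne_zero finrank_sp card_out_split
  dn_mem_cells rkM_add_le sum_eq_init_add sh)

variable {n : ℕ} {F : Type*} [Field F] {a : ℕ} {M : Set (Fin (n + 1) → ℕ)}

/-- The slice just below the `a`-th power. -/
def top (a : ℕ) (M : Set (Fin (n + 1) → ℕ)) : Set (Fin n → ℕ) := {b | Fin.snoc b (a - 1) ∈ M}

lemma isUp_top (hM : IsUp M) : IsUp (top a M) := fun b hb i => by
  show Fin.snoc (b + dl i) (a - 1) ∈ M
  rw [Free.snoc_add_dl]
  exact hM _ hb _

lemma hasPow_top {b : ℕ → ℕ} {c : ℕ} (hM : HasPow b c M) : HasPow b c (top a M) := fun i hi v hv =>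
  hM i.castSucc (by simpa using hi) _ (by simpa using hv)

lemma hasPow_base {b : ℕ → ℕ} {c : ℕ} (hM : HasPow b c M) : HasPow b c (base M) := fun i hi v hv =>
  hM i.castSucc (by simpa using hi) _ (by simpa using hv)

variable (F)

open Classical in
/-- Functions of fewer variables put at the last position and exponent `a - 1`. -/
noncomputable def embTop (a : ℕ) : (Pt n → F) →ₗ[F] (Pt (n + 1) → F) where
  toFun f := fun z => if Fin.last n ∈ z.1 ∧ z.2 (Fin.last n) = a - 1 then f (dn z) else 0
  map_add' f g := by
    funext z
    simp only [Pi.add_apply]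
    split_ifs <;> simp
  map_smul' c f := by
    funext z
    simp only [Pi.smul_apply, smul_eq_mul, RingHom.id_apply]
    split_ifs <;> simp

variable {F}

open Classical in
lemma embTop_apply (f : Pt n → F) (z : Pt (n + 1)) :
    embTop F a f z = if Fin.last n ∈ z.1 ∧ z.2 (Fin.last n) = a - 1 then f (dn z) else 0 := rfl

lemma embTop_injective : Function.Injective (embTop (n := n) F a) := fun f g h => funext fun z => by
  classical
  have hv : ∀ f : Pt n → F, embTop F a f (Free.lift z |>.1 |> insert (Fin.last n),
      Fin.snoc z.2 (a - 1)) = f z := fun f => by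
    rw [embTop_apply, if_pos (by simp)]
    congr 1
    refine Prod.ext ?_ ?_
    · ext k; simp [dn, Free.lift, Fin.castSucc_ne_last]
    · funext i; simp [dn]
  rw [← hv f, h, hv]

lemma embTop_mem {p e d : ℕ} (hd : e + (a - 1) = d) {f : Pt n → F} (hf : f ∈ sp F (cells n p e)) :
    embTop F a f ∈ sp F (cells (n + 1) (p + 1) d) := by
  classical
  refine mem_sp.2 fun z hz => ?_
  rw [embTop_apply]
  split_ifs with h
  · refine mem_sp.1 hf _ fun hc => hz ?_
    obtain ⟨h1, h2⟩ := mem_cells.1 hc
    refine mem_cells.2 ⟨?_, ?_⟩
    · have e : z.1 = insert (Fin.last n) ((dn z).1.map Fin.castSuccEmb) := by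
        ext k
        induction k using Fin.lastCases with
        | last => simp [h.1]
        | cast k => simp [dn, Fin.castSucc_ne_last]
      rw [e, card_insert_of_notMem (by simp [Fin.castSucc_ne_last]), card_map, h1]
    · rw [sum_eq_init_add, h.2]
      exact (congrArg (· + (a - 1)) h2).trans hd
  · rfl

/-- Modulo `M` the boundary commutes with the top embedding up to sign. -/
lemma prj_dd_embTop (hy : ∀ b ∈ ({b | a ≤ b (Fin.last n)} : Set (Fin (n + 1) → ℕ)), b ∈ M)
    (f : Pt n → F) :
    prj F M (dd F (embTop F a f)) = -embTop F a (prj F (top a M) (dd F f)) := by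
  classical
  funext z
  rw [Pi.neg_apply, prj_apply, embTop_apply, dd_apply]
  by_cases hz : Fin.last n ∈ z.1 ∧ z.2 (Fin.last n) = a - 1
  swap
  · rw [if_neg hz, neg_zero]
    split_ifs with hM
    · rfl
    refine sum_eq_zero fun k hk => ?_
    split_ifs with hk'
    swap
    · rfl
    rw [embTop_apply, if_neg, mul_zero]
    rintro ⟨h1, h2⟩
    simp only [mem_insert, Pi.sub_apply] at h1 h2
    by_cases hkl : k = Fin.last n
    · subst hkl
      simp [dl] at h2
      exact hM (hy _ (show a ≤ z.2 (Fin.last n) by omega))
    · exact hz ⟨h1.resolve_left (Ne.symm hkl), by simpa [dl, Ne.symm hkl] using h2⟩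
  rw [if_pos hz, prj_apply]
  have hiff : (dn z).2 ∈ top a M ↔ z.2 ∈ M := by
    show Fin.snoc _ (a - 1) ∈ M ↔ _
    have : (Fin.snoc (dn z).2 (a - 1) : Fin (n + 1) → ℕ) = z.2 := by
      funext j
      induction j using Fin.lastCases with
      | last => simp [hz.2]
      | cast j => simp [dn]
    rw [this]
  by_cases hM : z.2 ∈ M
  · rw [if_pos hM, if_pos (hiff.2 hM), neg_zero]
  rw [if_neg hM, if_neg (hM ∘ hiff.1), dd_apply, ← sum_neg_distrib]
  symm
  refine sum_bij_ne_zero (fun k _ _ => k.castSucc) ?_ ?_ ?_ ?_
  · intro k hk _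
    simpa [dn] using hk
  · intro a _ _ b _ _ e
    exact Fin.castSucc_injective n e
  · intro b hb hb'
    obtain ⟨h1, h2⟩ := ite_ne_right_iff.1 hb'
    have hbl : b ≠ Fin.last n := fun e => mem_compl.1 hb (e ▸ hz.1)
    obtain ⟨k, rfl⟩ := Fin.exists_castSucc_eq.2 hbl
    have hk : k ∈ (dn z).1ᶜ := by simpa [dn] using hb
    refine ⟨k, hk, ?_, rfl⟩
    rw [if_pos (show 1 ≤ (dn z).2 k from h1)]
    intro e
    apply h2
    rcases mul_eq_zero.1 (neg_eq_zero.1 e) with e | e
    · exact absurd e (by
        rcases neg_one_pow_eq_or ℤ ((dn z).1.filter (k < ·)).card with h | h <;> simp [Free.sg, h])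
    · rw [embTop_apply, if_pos ⟨by simp [hz.1],
        by simp [dl, (Fin.castSucc_ne_last k).symm, hz.2]⟩]
      have : dn (insert k.castSucc z.1, z.2 - dl k.castSucc) =
          (insert k (dn z).1, (dn z).2 - dl k) := by
        refine Prod.ext ?_ ?_
        · ext a; simp [dn]
        · funext i; simp [dn, dl, Pi.single_apply]
      rw [this, e, mul_zero]
  · intro k hk hk'
    have this : dn (insert k.castSucc z.1, z.2 - dl k.castSucc) =
        (insert k (dn z).1, (dn z).2 - dl k) := by
      refine Prod.ext ?_ ?_
      · ext a; simp [dn]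
      · funext i; simp [dn, dl, Pi.single_apply]
    have hc : Fin.last n ∈ (insert k.castSucc z.1, z.2 - dl k.castSucc).1 ∧
        (insert k.castSucc z.1, z.2 - dl k.castSucc).2 (Fin.last n) = a - 1 :=
      ⟨by simp [hz.1], by simp [dl, (Fin.castSucc_ne_last k).symm, hz.2]⟩
    rw [embTop_apply, if_pos hc, this]
    have hsg : Free.sg k.castSucc z.1 = -Free.sg k (dn z).1 := by
      unfold Free.sg
      have e : z.1.filter (k.castSucc < ·) =
          insert (Fin.last n) (((dn z).1.filter (k < ·)).map Fin.castSuccEmb) := by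
        ext j
        induction j using Fin.lastCases with
        | last => simp [hz.1, Fin.castSucc_lt_last]
        | cast j => simp [dn, Fin.castSucc_ne_last]
      rw [e, card_insert_of_notMem (by simp [Fin.castSucc_ne_last]), card_map, pow_succ]
      ring
    rw [hsg]
    show -(if 1 ≤ (dn z).2 k then _ else 0) = if 1 ≤ (dn z).2 k then _ else 0
    split_ifs <;> push_cast <;> ring

/-- The rank of the top slice inside. -/
noncomputable def rkTop (F : Type*) [Field F] (a : ℕ) (M : Set (Fin (n + 1) → ℕ)) :
    ℕ → ℕ → ℕ
  | 0, _ => 0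
  | q + 1, d => if a ≤ d + 1 then rkM F (top a M) q (d + 1 - a) else 0

variable (F) in
/-- The space the boundary of the top slice gives. -/
noncomputable def topSpace (a : ℕ) (M : Set (Fin (n + 1) → ℕ)) :
    ℕ → ℕ → Submodule F (Pt (n + 1) → F)
  | 0, _ => ⊥
  | q + 1, d => if a ≤ d + 1 then
      ((sp F (cells n (q + 1) (d + 1 - a))).map (prj F (top a M) ∘ₗ dd F)).map (embTop F a)
    else ⊥

lemma embTop_unit {z : Pt (n + 1)} (h1 : Fin.last n ∈ z.1) (h2 : z.2 (Fin.last n) = a - 1) :
    embTop F a (unit' F (dn z)) = unit' F z := by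
  classical
  funext w
  rw [embTop_apply]
  split_ifs with h
  · by_cases e : w = z
    · rw [e, unit'_self, unit'_self]
    · rw [unit'_of_ne e, unit'_of_ne]
      intro e'
      refine e (Prod.ext ?_ ?_)
      · ext k
        induction k using Fin.lastCases with
        | last => simp [h.1, h1]
        | cast k => simpa [dn] using Finset.ext_iff.1 (congrArg Prod.fst e') k
      · funext k
        induction k using Fin.lastCases with
        | last => rw [h.2, h2]
        | cast k => exact congrFun (congrArg Prod.snd e') k
  · rw [unit'_of_ne]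
    intro e
    exact h (e ▸ ⟨h1, h2⟩)

lemma dn_mem_cells_top {p d : ℕ} {z : Pt (n + 1)} (hz : z ∈ cells (n + 1) (p + 1) d)
    (h1 : Fin.last n ∈ z.1) (h2 : z.2 (Fin.last n) = a - 1) :
    dn z ∈ cells n p (d - (a - 1)) := by
  classical
  obtain ⟨h3, h4⟩ := mem_cells.1 hz
  refine mem_cells.2 ⟨?_, ?_⟩
  · have e : z.1 = insert (Fin.last n) ((dn z).1.map Fin.castSuccEmb) := by
      ext k
      induction k using Fin.lastCases with
      | last => simp [h1]
      | cast k => simp [dn, Fin.castSucc_ne_last]
    rw [e, card_insert_of_notMem (by simp [Fin.castSucc_ne_last]), card_map] at h3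
    omega
  · rw [sum_eq_init_add, h2] at h4
    show ∑ i : Fin n, z.2 i.castSucc = _
    omega

lemma finrank_ite {V : Type*} [AddCommGroup V] [Module F V] (P : Prop) [Decidable P]
    (U : Submodule F V) :
    finrank F ↥(if P then U else ⊥) = if P then finrank F U else 0 := by
  cases ‹Decidable P› with
  | isTrue h => rfl
  | isFalse h => exact finrank_bot F V

lemma finite_ite {V : Type*} [AddCommGroup V] [Module F V] (P : Prop) [Decidable P]
    (U : Submodule F V) [FiniteDimensional F U] :
    FiniteDimensional F ↥(if P then U else ⊥) := by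
  cases ‹Decidable P› with
  | isTrue h => exact ‹FiniteDimensional F U›
  | isFalse h => exact inferInstanceAs (FiniteDimensional F (⊥ : Submodule F V))

lemma topSpace_finrank (p d : ℕ) :
    finrank F (topSpace F a M p d) = rkTop F a M (p + 1) d := by
  cases p with
  | zero =>
    show finrank F (⊥ : Submodule F (Pt (n + 1) → F)) = _
    rw [finrank_bot]
    simp only [rkTop]
    split_ifs <;> rfl
  | succ q =>
    simp only [rkTop]
    refine (finrank_ite _ _).trans ?_
    split_ifs
    · exact (Submodule.equivMapOfInjective _ embTop_injective _).finrank_eq.symm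
    · rfl

lemma topSpace_fin (p d : ℕ) : FiniteDimensional F (topSpace F a M p d) := by
  cases p with
  | zero => exact inferInstanceAs (FiniteDimensional F (⊥ : Submodule F (Pt (n + 1) → F)))
  | succ q => exact finite_ite _ _

lemma topSpace_last {p d : ℕ} {f : Pt (n + 1) → F} (hf : f ∈ topSpace F a M p d)
    {z : Pt (n + 1)} (hz : Fin.last n ∉ z.1) : f z = 0 := by
  classical
  cases p with
  | zero => rw [topSpace, Submodule.mem_bot] at hf; rw [hf]; rfl
  | succ q =>
    rw [topSpace] at hf
    split_ifs at hf
    · obtain ⟨g, -, rfl⟩ := hf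
      rw [embTop_apply, if_neg fun h => hz h.1]
    · rw [Submodule.mem_bot] at hf; rw [hf]; rfl

/-- The rank splits at least. -/
theorem rkM_split_le (ha : 0 < a) (hy : ∀ b : Fin (n + 1) → ℕ, a ≤ b (Fin.last n) → b ∈ M)
    (p d : ℕ) :
    rkM F (base M) (p + 1) d + (tops M p d).card + rkTop F a M (p + 1) d ≤ rkM F M (p + 1) d := by
  classical
  set W := (sp F (cells (n + 1) (p + 1) d)).map (prj F M ∘ₗ dd F)
  set W₀ := (sp F (cells n (p + 1) d)).map (prj F (base M) ∘ₗ dd F) with hW₀
  set R := keep (n := n + 1) F fun z => Fin.last n ∉ z.1 ∨ z.2 (Fin.last n) = a - 1 with hR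
  set E := W₀.map (emb F)
  set S := sp F (tops M p d)
  set Y := topSpace F a M p d
  have hYfin : FiniteDimensional F Y := topSpace_fin p d
  have hWfin : FiniteDimensional F W := Module.Finite.map _ _
  have hW₀fin : FiniteDimensional F W₀ := Module.Finite.map _ _
  have hEfin : FiniteDimensional F E := Module.Finite.map _ _
  have hE : finrank F E = finrank F W₀ :=
    (Submodule.equivMapOfInjective _ emb_injective W₀).finrank_eq.symm
  have hES : E ⊓ S = ⊥ := by
    rw [Submodule.eq_bot_iff]
    rintro _ ⟨⟨f, -, rfl⟩, hS⟩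
    funext z
    rw [Pi.zero_apply, emb_apply]
    split_ifs with h
    · have := mem_sp.1 hS z fun hz => by
        have := (mem_tops.1 hz).2.2.1
        omega
      rwa [emb_apply, if_pos h] at this
    · rfl
  have hESY : (E ⊔ S) ⊓ Y = ⊥ := by
    rw [Submodule.eq_bot_iff]
    rintro f ⟨hf, hY⟩
    funext z
    rw [Pi.zero_apply]
    by_cases hz : Fin.last n ∈ z.1
    · obtain ⟨_, ⟨g, -, rfl⟩, s, hs, rfl⟩ := Submodule.mem_sup.1 hf
      rw [Pi.add_apply, emb_apply, if_neg fun h => h.1 hz,
        mem_sp.1 hs z fun h => (mem_tops.1 h).2.1 hz, add_zero]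
    · exact topSpace_last hY hz
  have hYle : Y ≤ W.map R := by
    show topSpace F a M p d ≤ _
    cases p with
    | zero => exact bot_le
    | succ q =>
      rw [topSpace]
      split_ifs with h
      · rintro _ ⟨_, ⟨f, hf, rfl⟩, rfl⟩
        refine ⟨embTop F a (prj F (top a M) (dd F f)), ⟨embTop F a (-f),
          embTop_mem (by omega) (Submodule.neg_mem _ hf), ?_⟩, ?_⟩
        · rw [LinearMap.comp_apply, prj_dd_embTop hy]
          simp only [map_neg, neg_neg]
        · funext z
          rw [hR, keep_apply, LinearMap.comp_apply]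
          by_cases h' : Fin.last n ∉ z.1 ∨ z.2 (Fin.last n) = a - 1
          · rw [if_pos h']
          · rw [if_neg h', embTop_apply, if_neg fun h'' => h' (Or.inr h''.2)]
      · exact bot_le
  have hsub : E ⊔ S ≤ W.map R := by
    refine sup_le ?_ ?_
    · rintro _ ⟨_, ⟨f, hf, rfl⟩, rfl⟩
      refine ⟨emb F (prj F (base M) (dd F f)), ⟨emb F f, emb_mem hf, ?_⟩, ?_⟩
      · rw [LinearMap.comp_apply, dd_emb, prj_emb]
      · funext z
        simp only [LinearMap.comp_apply, hR, keep_apply]
        by_cases h : Fin.last n ∈ z.1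
        · rw [emb_apply, if_neg fun (h' : Fin.last n ∉ z.1 ∧ z.2 (Fin.last n) = 0) => h'.1 h, ite_self]
        · rw [if_pos (Or.inl h)]
    · refine Submodule.span_le.2 ?_
      rintro _ ⟨⟨z, hz⟩, rfl⟩
      obtain ⟨hzc, hzT, hzy, hzM⟩ := mem_tops.1 hz
      have hza : z.2 (Fin.last n) < a := by
        by_contra h
        exact hzM (hy _ (by omega))
      obtain ⟨h3, h4⟩ := mem_cells.1 hzc
      set u : Pt (n + 1) := (insert (Fin.last n) z.1, z.2 - dl (Fin.last n)) with hu
      have huc : u ∈ cells (n + 1) (p + 1) d := by
        refine mem_cells.2 ⟨by simp [hu, card_insert_of_notMem hzT, h3], ?_⟩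
        have := sum_sub_dl hzy
        simp only [hu] at *
        omega
      refine ⟨prj F M (dd F (unit' F u)), ⟨_, unit'_mem_sp huc, rfl⟩, ?_⟩
      funext w
      simp only [hR, keep_apply, prj_apply]
      by_cases hw : w = z
      · subst hw
        rw [if_pos (Or.inl hzT), if_neg hzM, unit'_self, dd_apply, sum_eq_single (Fin.last n)]
        · rw [if_pos hzy, sg_last]
          simp [← hu, unit'_self]
        · intro k _ hk
          split_ifs
          · rw [unit'_of_ne, mul_zero]
            intro e
            have := (Prod.ext_iff.1 e).1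
            simp only [hu] at this
            have hkm : Fin.last n ∈ insert k w.1 := by rw [this]; exact mem_insert_self _ _
            exact hzT ((mem_insert.1 hkm).resolve_left (Ne.symm hk))
          · rfl
        · exact fun h => absurd (mem_compl.2 hzT) h
      · rw [unit'_of_ne hw]
        split_ifs with h1 h2
        · rfl
        · by_contra hne
          obtain ⟨k, hk, hk', e⟩ := dd_unit_ne_zero hne
          simp only [hu, Prod.mk.injEq] at e
          by_cases hkl : k = Fin.last n
          · subst hkl
            apply hw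
            refine Prod.ext ?_ ?_
            · rw [← erase_insert hk, ← e.1, erase_insert hzT]
            · rw [← sub_add_dl hk', ← e.2, sub_add_dl hzy]
          · have hm : Fin.last n ∈ insert k w.1 := e.1 ▸ mem_insert_self _ _
            have hT : Fin.last n ∈ w.1 := (mem_insert.1 hm).resolve_left (Ne.symm hkl)
            have h5 := h1.resolve_left (not_not.2 hT)
            have h6 := congrFun e.2 (Fin.last n)
            simp [dl, Ne.symm hkl] at h6
            omega
        · rfl
  have hRW : FiniteDimensional F (W.map R) := Module.Finite.map _ _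
  have hsum := Submodule.finrank_sup_add_finrank_inf_eq E S
  rw [hES, finrank_bot, add_zero, hE, finrank_sp] at hsum
  have hsum' := Submodule.finrank_sup_add_finrank_inf_eq (E ⊔ S) Y
  rw [hESY, finrank_bot, add_zero, hsum, topSpace_finrank] at hsum'
  have h1 := Submodule.finrank_mono (sup_le hsub hYle)
  have h2 := Submodule.finrank_map_le R W
  show finrank F W₀ + _ + _ ≤ finrank F W
  omega

/-- For a set stable below the power there is equality. -/
theorem rkM_le_split (ha : 0 < a) (hy : ∀ b : Fin (n + 1) → ℕ, a ≤ b (Fin.last n) → b ∈ M)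
    {p d : ℕ} (hst : StabBelow M (d + 1) a) :
    rkM F M (p + 1) d ≤ rkM F (base M) (p + 1) d + (tops M p d).card + rkTop F a M (p + 1) d := by
  classical
  set W := (sp F (cells (n + 1) (p + 1) d)).map (prj F M ∘ₗ dd F)
  set W₀ := (sp F (cells n (p + 1) d)).map (prj F (base M) ∘ₗ dd F) with hW₀
  set src := (tops M p d).image fun z : Pt (n + 1) =>
    (insert (Fin.last n) z.1, z.2 - dl (Fin.last n))
  set B := Submodule.span F (Set.range fun u : src => prj F M (dd F (unit' F (u : Pt (n + 1)))))
  set E := W₀.map (emb F)
  set Y := topSpace F a M p d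
  have hYfin : FiniteDimensional F Y := topSpace_fin p d
  have hW₀fin : FiniteDimensional F W₀ := Module.Finite.map _ _
  have hEfin : FiniteDimensional F E := Module.Finite.map _ _
  have hBfin : FiniteDimensional F B := FiniteDimensional.span_of_finite F (Set.finite_range _)
  have hlast : ∀ z ∈ cells (n + 1) (p + 1) d, Fin.last n ∈ z.1 →
      prj F M (dd F (unit' F z)) ∈ E ⊔ B ⊔ Y := by
    intro z hz hy'
    obtain ⟨h3, h4⟩ := mem_cells.1 hz
    rcases lt_trichotomy (z.2 (Fin.last n)) (a - 1) with hlt | heq | hgt
    · by_cases hzM : z.2 + dl (Fin.last n) ∈ M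
      · convert Submodule.zero_mem (E ⊔ B ⊔ Y)
        funext w
        rw [prj_apply, Pi.zero_apply]
        split_ifs with hw
        · rfl
        · by_contra hne
          obtain ⟨k, hk, hk', e⟩ := dd_unit_ne_zero hne
          have ez : z.2 + dl k = w.2 := by rw [e]; exact sub_add_dl hk'
          by_cases hkl : k = Fin.last n
          · exact hw (by rw [← ez, hkl]; exact hzM)
          · refine hw ?_
            have hs := hst _ hzM (by simp [Pi.add_apply, sum_add_distrib, sum_dl, h4]) (by simp [dl])
              (by simp [dl]; omega) k hkl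
            rw [← ez]
            convert hs using 1
            funext i
            rcases eq_or_ne i (Fin.last n) with rfl | hi
            · simp [sh, dl, Ne.symm hkl]
            rcases eq_or_ne i k with rfl | hik
            · simp [sh, dl, hi]
            · simp [sh, dl, hi, hik]
      · refine Submodule.mem_sup_left (Submodule.mem_sup_right (Submodule.subset_span ⟨⟨z,
          mem_image.2 ⟨(z.1.erase (Fin.last n), z.2 + dl (Fin.last n)), mem_tops.2 ⟨?_,
            notMem_erase _ _, by simp [dl], hzM⟩, ?_⟩⟩, rfl⟩))
        · exact mem_cells.2 ⟨by simp [card_erase_of_mem hy', h3],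
            by simp [Pi.add_apply, sum_add_distrib, sum_dl, h4]⟩
        · exact Prod.ext (insert_erase hy') add_sub_dl
    · refine Submodule.mem_sup_right ?_
      rw [← embTop_unit (F := F) hy' heq, prj_dd_embTop hy]
      refine Submodule.neg_mem _ ?_
      show _ ∈ topSpace F a M p d
      have hd : a ≤ d + 1 := by
        have := single_le_sum (s := univ) (f := z.2) (fun i _ => Nat.zero_le _) (mem_univ (Fin.last n))
        omega
      have hc := dn_mem_cells_top hz hy' heq
      cases p with
      | zero =>
        rw [topSpace, Submodule.mem_bot]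
        suffices h : dd F (unit' F (dn z)) = 0 by rw [h, map_zero, map_zero]
        funext w
        by_contra hne
        obtain ⟨k, hk, -, e⟩ := dd_unit_ne_zero hne
        have h1 := (mem_cells.1 hc).1
        rw [e] at h1
        simp [card_insert_of_notMem hk] at h1
      | succ q =>
        rw [topSpace, if_pos hd]
        refine ⟨_, ⟨_, unit'_mem_sp ?_, rfl⟩, rfl⟩
        rwa [show d + 1 - a = d - (a - 1) by omega]
    · convert Submodule.zero_mem (E ⊔ B ⊔ Y)
      funext w
      rw [prj_apply, Pi.zero_apply]
      split_ifs with hw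
      · rfl
      · by_contra hne
        obtain ⟨k, hk, hk', e⟩ := dd_unit_ne_zero hne
        refine hw (hy _ ?_)
        have h := congrFun (congrArg Prod.snd e) (Fin.last n)
        simp only [Pi.sub_apply] at h
        omega
  have hall : ∀ z ∈ cells (n + 1) (p + 1) d, prj F M (dd F (unit' F z)) ∈ E ⊔ B ⊔ Y := by
    intro z hz
    by_cases hy' : Fin.last n ∈ z.1
    · exact hlast z hz hy'
    by_cases h0 : z.2 (Fin.last n) = 0
    · refine Submodule.mem_sup_left (Submodule.mem_sup_left
        ⟨prj F (base M) (dd F (unit' F (dn z))), ⟨_, unit'_mem_sp (dn_mem_cells hz hy' h0), rfl⟩,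
          ?_⟩)
      rw [← emb_unit (F := F) hy' h0, dd_emb, prj_emb]
    -- a cell whose boundary is a combination of the others
    obtain ⟨h3, h4⟩ := mem_cells.1 hz
    set u : Pt (n + 1) := (insert (Fin.last n) z.1, z.2 - dl (Fin.last n)) with hu
    have hy1 : 1 ≤ z.2 (Fin.last n) := Nat.one_le_iff_ne_zero.2 h0
    have hd1 := sum_sub_dl hy1
    have huc : u ∈ cells (n + 1) (p + 1 + 1) (d - 1) := by
      refine mem_cells.2 ⟨by simp [hu, card_insert_of_notMem hy', h3], ?_⟩
      simp only [hu]
      omega
    set g := dd F (unit' F u) - unit' F z with hg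
    have hgsp : g ∈ sp F ((cells (n + 1) (p + 1) d).filter fun w => Fin.last n ∈ w.1) := by
      refine mem_sp.2 fun w hw => ?_
      by_contra hne
      have hwz : w ≠ z := by
        rintro rfl
        apply hne
        rw [hg, Pi.sub_apply, unit'_self, dd_apply, sum_eq_single (Fin.last n)]
        · rw [if_pos hy1, sg_last]
          simp [← hu, unit'_self]
        · intro k _ hk
          split_ifs
          · rw [unit'_of_ne, mul_zero]
            intro e
            have := (Prod.ext_iff.1 e).1
            simp only [hu] at this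
            have hkm : Fin.last n ∈ insert k w.1 := by rw [this]; exact mem_insert_self _ _
            exact hy' ((mem_insert.1 hkm).resolve_left (Ne.symm hk))
          · rfl
        · exact fun h => absurd (mem_compl.2 hy') h
      rw [hg, Pi.sub_apply, unit'_of_ne hwz, sub_zero] at hne
      obtain ⟨k, hk, hk', e⟩ := dd_unit_ne_zero hne
      simp only [hu, Prod.mk.injEq] at e
      have hwc : w ∈ cells (n + 1) (p + 1) d := by
        by_contra h
        have := dd_mem (unit'_mem_sp (F := F) huc)
        rw [show d - 1 + 1 = d by omega] at this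
        exact hne (mem_sp.1 this w h)
      refine hw (mem_filter.2 ⟨hwc, ?_⟩)
      have hm : Fin.last n ∈ insert k w.1 := e.1 ▸ mem_insert_self _ _
      refine (mem_insert.1 hm).resolve_left fun hkl => hwz ?_
      subst hkl
      refine Prod.ext ?_ ?_
      · rw [← erase_insert hk, ← e.1, erase_insert hy']
      · rw [← sub_add_dl hk', ← e.2, sub_add_dl hy1]
    have hgW : prj F M (dd F g) ∈ E ⊔ B ⊔ Y := by
      clear_value g
      clear hg
      induction hgsp using Submodule.span_induction with
      | mem y hy'' =>
        obtain ⟨⟨w, hw⟩, rfl⟩ := hy''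
        exact hlast w (mem_filter.1 hw).1 (mem_filter.1 hw).2
      | zero => simp
      | add a b _ _ ha hb => rw [map_add, map_add]; exact Submodule.add_mem _ ha hb
      | smul r a _ ha => rw [map_smul, map_smul]; exact Submodule.smul_mem _ _ ha
    have hzero : prj F M (dd F g) + prj F M (dd F (unit' F z)) = 0 := by
      rw [← map_add, ← map_add, hg, sub_add_cancel, dd_dd, map_zero]
    rw [eq_neg_of_add_eq_zero_right hzero]
    exact Submodule.neg_mem _ hgW
  have hW : W ≤ E ⊔ B ⊔ Y := by
    rintro _ ⟨f, hf, rfl⟩
    induction hf using Submodule.span_induction with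
    | mem y hy'' =>
      obtain ⟨⟨z, hz⟩, rfl⟩ := hy''
      exact hall z hz
    | zero => simp
    | add a b _ _ ha hb => rw [map_add]; exact Submodule.add_mem _ ha hb
    | smul r a _ ha => rw [map_smul]; exact Submodule.smul_mem _ _ ha
  have h1 := Submodule.finrank_mono hW
  have h2 := Submodule.finrank_add_le_finrank_add_finrank (E ⊔ B) Y
  have h2' := Submodule.finrank_add_le_finrank_add_finrank E B
  have h3 : finrank F E = finrank F W₀ :=
    (Submodule.equivMapOfInjective _ emb_injective W₀).finrank_eq.symm
  have h4 : finrank F B ≤ (tops M p d).card := by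
    refine (finrank_range_le_card _).trans ?_
    rw [Fintype.card_coe]
    exact card_image_le
  have h5 : finrank F Y = rkTop F a M (p + 1) d := topSpace_finrank p d
  show finrank F W ≤ finrank F W₀ + _ + _
  omega

variable (F) in
/-- The Betti number of the top slice inside. -/
noncomputable def hTop (a : ℕ) (M : Set (Fin (n + 1) → ℕ)) : ℕ → ℕ → ℕ
  | 0, _ => 0
  | q + 1, d => if a ≤ d + 1 then hM F (top a M) q (d + 1 - a) else 0

/-- The cells of the top slice inside. -/
noncomputable def xTop (a : ℕ) (M : Set (Fin (n + 1) → ℕ)) : ℕ → ℕ → ℕ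
  | 0, _ => 0
  | q + 1, d => if a ≤ d + 1 then (outCells (top a M) q (d + 1 - a)).card else 0

lemma hTop_add_rkTop (ha : 0 < a) (hM : IsUp M) (p d : ℕ) :
    hTop F a M p d + (rkTop F a M p d + if d = 0 then 0 else rkTop F a M (p + 1) (d - 1)) =
      xTop a M p d := by
  cases p with
  | zero =>
    simp only [hTop, rkTop, xTop, rkM, ite_self, add_zero]
  | succ q =>
    have h := rkM_add_le (F := F) (isUp_top (a := a) hM) q (d + 1 - a)
    simp only [hTop, rkTop, xTop, Free.hM]
    by_cases hd : a ≤ d + 1
    swap
    · have hd' : ¬a ≤ d - 1 + 1 := by omega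
      rw [if_neg hd, if_neg hd, if_neg hd, if_neg hd']
      simp
    rw [if_pos hd, if_pos hd, if_pos hd]
    by_cases he : d + 1 - a = 0
    · rw [if_pos he] at h ⊢
      split_ifs
      · omega
      · exfalso; omega
      · omega
    · rw [if_neg he] at h ⊢
      rw [if_neg (show d ≠ 0 by omega), if_pos (show a ≤ d - 1 + 1 by omega),
        show d - 1 + 1 - a = d + 1 - a - 1 by omega]
      omega

/-- The Betti numbers are at most those of the two end slices and a count. -/
theorem hM_le_split (ha : 0 < a) (hM : IsUp M)
    (hy : ∀ b : Fin (n + 1) → ℕ, a ≤ b (Fin.last n) → b ∈ M) (p d : ℕ) :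
    Free.hM F M p d + pc n p * num M d + xTop a M p d ≤
      Free.hM F (base M) p d + pc n p * topNum M d + hTop F a M p d := by
  have h1 := card_out_split M p d
  have hb := rkM_add_le (F := F) (Free.isUp_base hM) p d
  have hm := rkM_add_le (F := F) hM p d
  have hx := hTop_add_rkTop (F := F) ha hM p d
  have h2 : rkM F (base M) p d + pc n p * ((mons (n + 1) d).card - topNum M d) +
      rkTop F a M p d ≤ rkM F M p d := by
    cases p with
    | zero => simp [pc, rkM, rkTop]
    | succ q => rw [pc, ← card_tops]; exact rkM_split_le ha hy q d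
  have h3 : (if d = 0 then 0 else rkM F (base M) (p + 1) (d - 1)) +
      (if d = 0 then 0 else n.choose p * ((mons (n + 1) (d - 1)).card - topNum M (d - 1))) +
      (if d = 0 then 0 else rkTop F a M (p + 1) (d - 1)) ≤
      if d = 0 then 0 else rkM F M (p + 1) (d - 1) := by
    split_ifs
    · simp
    · rw [← card_tops]; exact rkM_split_le ha hy p (d - 1)
  have h5 : pc n p * ((mons (n + 1) d).card - topNum M d) + pc n p * topNum M d =
      pc n p * (mons (n + 1) d).card := by
    rw [← Nat.mul_add, Nat.sub_add_cancel (topNum_le M d)]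
  unfold Free.hM
  omega

/-- Stability gives equality. -/
theorem hM_split (ha : 0 < a) (hM : IsUp M)
    (hy : ∀ b : Fin (n + 1) → ℕ, a ≤ b (Fin.last n) → b ∈ M) (hst : ∀ e, StabBelow M e a)
    (p d : ℕ) :
    Free.hM F M p d + pc n p * num M d + xTop a M p d =
      Free.hM F (base M) p d + pc n p * topNum M d + hTop F a M p d := by
  have h1 := card_out_split M p d
  have hb := rkM_add_le (F := F) (Free.isUp_base hM) p d
  have hm := rkM_add_le (F := F) hM p d
  have hx := hTop_add_rkTop (F := F) ha hM p d
  have h2 : rkM F M p d = rkM F (base M) p d + pc n p * ((mons (n + 1) d).card - topNum M d) +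
      rkTop F a M p d := by
    cases p with
    | zero => simp [pc, rkM, rkTop]
    | succ q =>
      rw [pc, ← card_tops]
      exact le_antisymm (rkM_le_split ha hy (hst _)) (rkM_split_le ha hy q d)
  have h3 : (if d = 0 then 0 else rkM F M (p + 1) (d - 1)) =
      (if d = 0 then 0 else rkM F (base M) (p + 1) (d - 1)) +
      (if d = 0 then 0 else n.choose p * ((mons (n + 1) (d - 1)).card - topNum M (d - 1))) +
      (if d = 0 then 0 else rkTop F a M (p + 1) (d - 1)) := by
    split_ifs
    · simp
    · rw [← card_tops]
      exact le_antisymm (rkM_le_split ha hy (hst _)) (rkM_split_le ha hy p (d - 1))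
  have h5 : pc n p * ((mons (n + 1) d).card - topNum M d) + pc n p * topNum M d =
      pc n p * (mons (n + 1) d).card := by
    rw [← Nat.mul_add, Nat.sub_add_cancel (topNum_le M d)]
  unfold Free.hM
  omega

end Vale.Agent.P200.Betti.Pow
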