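import Vale.Agent.P200.Betti.Free.Lpp
import Vale.Agent.P200.Betti.Pow.Slice

/-!
Lex-plus-powers sets, and the counts that compare their two end slices with those
of a stable set.
-/

namespace Vale.Agent.P200.Betti.Pow

open Finset Module
open Vale.Agent.P200.Betti.Free (Pt dl mons mem_mons IsUp num sh sum_sh base sum_eq_init_add
  sum_snoc snoc_lex exists_prefix prefix_lt StableAt sum_dl sum_sub_dl)

variable {n c : ℕ} {a : ℕ → ℕ}

/-- Exponents below `a i` in the first `c` variables. -/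
def RedP (a : ℕ → ℕ) (c : ℕ) (b : Fin n → ℕ) : Prop := ∀ i : Fin n, (i : ℕ) < c → b i < a i

/-- A lex-plus-powers set of monomials. -/
def IsPowLPP (a : ℕ → ℕ) (c : ℕ) (L : Set (Fin n → ℕ)) : Prop :=
  IsUp L ∧ HasPow a c L ∧ ∀ b ∈ L, ∀ b' : Fin n → ℕ, ∑ i, b' i = ∑ i, b i → RedP a c b →
    RedP a c b' → toLex b < toLex b' → b' ∈ L

lemma HasPow.mem_of_not_red {M : Set (Fin n → ℕ)} (hM : HasPow a c M) {b : Fin n → ℕ}
    (hb : ¬ RedP a c b) : b ∈ M := by
  simp only [RedP, not_forall, not_lt] at hb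
  obtain ⟨i, hi, h2⟩ := hb
  exact hM i hi b h2

lemma HasPow.congr {c' : ℕ} {M : Set (Fin n → ℕ)} (hM : HasPow a c M)
    (h : ∀ i : Fin n, (i : ℕ) < c' → (i : ℕ) < c) : HasPow a c' M :=
  fun i hi b hb => hM i (h i hi) b hb

lemma IsPowLPP.congr {c' : ℕ} {L : Set (Fin n → ℕ)} (hL : IsPowLPP a c L)
    (h : ∀ i : Fin n, (i : ℕ) < c' ↔ (i : ℕ) < c) : IsPowLPP a c' L :=
  ⟨hL.1, hL.2.1.congr fun i hi => (h i).1 hi, fun b hb b' hs hr hr' hlt =>
    hL.2.2 b hb b' hs (fun i hi => hr i ((h i).2 hi)) (fun i hi => hr' i ((h i).2 hi)) hlt⟩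

/-- Segments of equal degree are nested. -/
lemma IsPowLPP.subset {L L' : Set (Fin n → ℕ)} (hL : IsPowLPP a c L) (hL' : IsPowLPP a c L')
    {d : ℕ} (h : num L d ≤ num L' d) {b : Fin n → ℕ} (hb : b ∈ L) (hd : ∑ i, b i = d) :
    b ∈ L' := by
  classical
  by_contra hn
  have hr : RedP a c b := by_contra fun h' => hn (hL'.2.1.mem_of_not_red h')
  have hsub : (mons n d).filter (· ∈ L') ⊂ (mons n d).filter (· ∈ L) := by
    refine (ssubset_iff_of_subset fun b' hb' => ?_).2
      ⟨b, mem_filter.2 ⟨mem_mons.2 hd, hb⟩, fun h => hn (mem_filter.1 h).2⟩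
    obtain ⟨hb1, hb2⟩ := mem_filter.1 hb'
    refine mem_filter.2 ⟨hb1, ?_⟩
    by_cases hrb : RedP a c b'
    swap
    · exact hL.2.1.mem_of_not_red hrb
    have hbd : ∑ i, b' i = ∑ i, b i := by rw [hd]; exact mem_mons.1 hb1
    rcases lt_trichotomy (toLex b) (toLex b') with h' | h' | h'
    · exact hL.2.2 b hb b' hbd hr hrb h'
    · exact toLex.injective h' ▸ hb
    · exact absurd (hL'.2.2 b' hb2 b hbd.symm hrb hr h') hn
  have := card_lt_card hsub
  unfold num at h
  omega

lemma red_snoc {b : Fin n → ℕ} (t : ℕ) :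
    RedP a c (Fin.snoc b t : Fin (n + 1) → ℕ) ↔ RedP a c b ∧ (n < c → t < a n) := by
  constructor
  · intro h
    exact ⟨fun i hi => by simpa using h i.castSucc (by simpa using hi),
      fun hn => by simpa using h (Fin.last n) (by simpa using hn)⟩
  · rintro ⟨h, ht⟩ i hi
    induction i using Fin.lastCases with
    | last => rw [Fin.val_last] at hi; simpa using ht hi
    | cast i => simpa using h i (by simpa using hi)

/-- The last variable of a lex-plus-powers set is the weakest. -/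
lemma IsPowLPP.stabBelow {L : Set (Fin (n + 1) → ℕ)} (hL : IsPowLPP a c L) {q : ℕ}
    (hq : c ≤ n ∨ q ≤ a n) (e : ℕ) : StabBelow L e q := by
  intro b hb he h1 h2 x hx
  by_cases hr : RedP a c (sh x b 1)
  swap
  · exact hL.2.1.mem_of_not_red hr
  have hrb : RedP a c b := by
    intro i hi
    by_cases hiy : i = Fin.last n
    · subst hiy
      rw [Fin.val_last] at hi ⊢
      omega
    · refine lt_of_le_of_lt ?_ (hr i hi)
      unfold sh
      rw [if_neg hiy]
      split_ifs <;> omega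
  refine hL.2.2 b hb _ (sum_sh hx h1) hrb hr ?_
  refine ⟨x, fun j hj => ?_, ?_⟩
  · show b j = sh x b 1 j
    have h1' : j ≠ Fin.last n := fun e => absurd (e ▸ hj) (not_lt.2 (Fin.le_last x))
    simp [sh, h1', hj.ne]
  · show b x < sh x b 1 x
    simp [sh, hx]

lemma IsPowLPP.stableAt {L : Set (Fin (n + 1) → ℕ)} (hL : IsPowLPP a c L) (hc : c ≤ n) (e : ℕ) :
    StableAt L e := fun b hb he h1 x hx => by
  refine hL.stabBelow (q := e + 1) (Or.inl hc) e b hb he h1 ?_ x hx
  have := single_le_sum (s := univ) (f := b) (fun i _ => Nat.zero_le _) (mem_univ (Fin.last n))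
  omega

lemma IsPowLPP.slice {L : Set (Fin (n + 1) → ℕ)} (hL : IsPowLPP a c L) {t : ℕ}
    (hup : IsUp {b : Fin n → ℕ | Fin.snoc b t ∈ L}) (ht : t < a n) :
    IsPowLPP a c {b : Fin n → ℕ | Fin.snoc b t ∈ L} :=
  ⟨hup, fun i hi b hb => hL.2.1 i.castSucc (by simpa using hi) _ (by simpa using hb),
    fun b hb b' hs hr hr' hlt => hL.2.2 _ hb _ (by rw [sum_snoc, sum_snoc, hs])
      ((red_snoc t).2 ⟨hr, fun _ => ht⟩) ((red_snoc t).2 ⟨hr', fun _ => ht⟩) (snoc_lex hlt t t)⟩

lemma IsPowLPP.base {L : Set (Fin (n + 1) → ℕ)} (hL : IsPowLPP a c L) (ha : 0 < a n) :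
    IsPowLPP a c (Free.base L) :=
  hL.slice (Free.isUp_base hL.1) ha

lemma IsPowLPP.top {L : Set (Fin (n + 1) → ℕ)} (hL : IsPowLPP a c L) (ha : 0 < a n) :
    IsPowLPP a c (Pow.top (a n) L) :=
  hL.slice (isUp_top hL.1) (by omega)

/-- The slices of one degree with last exponent below `q`, as a set in the other variables. -/
def slices (a : ℕ → ℕ) (c : ℕ) (M : Set (Fin (n + 1) → ℕ)) (e q : ℕ) : Set (Fin n → ℕ) :=
  {b | e < ∑ i, b i ∨ ¬ RedP a c b ∨ (e < ∑ i, b i + q ∧ Fin.snoc b (e - ∑ i, b i) ∈ M)}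

lemma hasPow_slices (M : Set (Fin (n + 1) → ℕ)) (e q : ℕ) : HasPow a c (slices a c M e q) :=
  fun i hi _ hb => Or.inr (Or.inl fun h => not_lt.2 hb (h i hi))

lemma isUp_slices {M : Set (Fin (n + 1) → ℕ)} {e q : ℕ} (hst : StabBelow M e q) :
    IsUp (slices a c M e q) := fun b hb i => by
  have hs : ∑ j, (b + dl i) j = ∑ j, b j + 1 := by simp [Pi.add_apply, sum_add_distrib, sum_dl]
  by_cases hle : e < ∑ j, b j + 1
  · exact Or.inl (hs ▸ hle)
  refine Or.inr ?_
  rcases hb with hb | hb | ⟨hb, hm⟩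
  · omega
  · exact Or.inl fun h => hb fun j hj => lt_of_le_of_lt (by simp) (h j hj)
  refine Or.inr ⟨by omega, ?_⟩
  have h := hst _ hm (by rw [sum_snoc]; omega) (by simp; omega) (by simp; omega)
    i.castSucc (Fin.castSucc_ne_last i)
  rw [hs]
  convert h using 1
  funext j
  induction j using Fin.lastCases with
  | last => simp [sh]; omega
  | cast j =>
    rcases eq_or_ne j i with rfl | hj
    · simp [sh, dl, Fin.castSucc_ne_last]
    · simp [sh, dl, hj, Fin.castSucc_ne_last]

lemma IsPowLPP.slices {L : Set (Fin (n + 1) → ℕ)} (hL : IsPowLPP a c L) {e q : ℕ}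
    (hq : c ≤ n ∨ q ≤ a n) : IsPowLPP a c (Pow.slices a c L e q) := by
  refine ⟨isUp_slices (hL.stabBelow hq e), hasPow_slices L e q,
    fun b hb b' hs hr hr' hlt => ?_⟩
  rcases hb with h | h | ⟨h, hm⟩
  · exact Or.inl (hs ▸ h)
  · exact absurd hr h
  · rw [show ∑ i, b i = ∑ i, b' i from hs.symm] at h hm
    by_cases hle : e < ∑ i, b' i
    · exact Or.inl hle
    exact Or.inr (Or.inr ⟨h, hL.2.2 _ hm _ (by rw [sum_snoc, sum_snoc, hs])
      ((red_snoc _).2 ⟨hr, fun hn => by omega⟩) ((red_snoc _).2 ⟨hr', fun hn => by omega⟩)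
      (snoc_lex hlt _ _)⟩)

lemma num_slices {M : Set (Fin (n + 1) → ℕ)} (hM : HasPow a c M) {e q k t : ℕ} (hkt : k + t = e)
    (ht : t < q) : num (slices a c M e q) k = num {b : Fin n → ℕ | Fin.snoc b t ∈ M} k := by
  classical
  unfold num
  congr 1
  refine filter_congr fun b hb => ?_
  have hb' := mem_mons.1 hb
  show (e < ∑ i, b i ∨ ¬ RedP a c b ∨ (e < ∑ i, b i + q ∧ Fin.snoc b (e - ∑ i, b i) ∈ M)) ↔
    Fin.snoc b t ∈ M
  rw [hb', show e - k = t by omega]
  constructor
  · rintro (h | h | h)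
    · omega
    · exact hM.mem_of_not_red fun h' => h ((red_snoc t).1 h').1
    · exact h.2
  · exact fun h => Or.inr (Or.inr ⟨by omega, h⟩)

open Classical in
lemma num_slices_high (M : Set (Fin (n + 1) → ℕ)) {e q k : ℕ} (h : ¬ e < k + q) :
    num (slices a c M e q) k = ((mons n k).filter fun b => ¬ RedP a c b).card := by
  unfold num
  congr 1
  refine filter_congr fun b hb => ?_
  have hb' := mem_mons.1 hb
  show (e < ∑ i, b i ∨ ¬ RedP a c b ∨ (e < ∑ i, b i + q ∧ Fin.snoc b (e - ∑ i, b i) ∈ M)) ↔ _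
  rw [hb']
  exact ⟨fun h' => h'.elim (fun h' => absurd (Nat.lt_add_right q h') h)
    fun h' => h'.elim id fun h' => absurd h'.1 h, fun h' => Or.inr (Or.inl h')⟩

open Classical in
lemma sum_num_fibres (M : Set (Fin (n + 1) → ℕ)) (e : ℕ) :
    ∑ k ∈ range (e + 1), num {b : Fin n → ℕ | Fin.snoc b (e - k) ∈ M} k = num M e := by
  unfold num
  have hmaps : ((mons (n + 1) e).filter (· ∈ M) : Set (Fin (n + 1) → ℕ)).MapsTo
      (fun a => ∑ i : Fin n, a i.castSucc) (range (e + 1)) := fun a ha => by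
    have := mem_mons.1 (mem_filter.1 (mem_coe.1 ha)).1
    rw [sum_eq_init_add] at this
    simp only [coe_range, Set.mem_Iio]
    omega
  rw [card_eq_sum_card_fiberwise hmaps]
  refine sum_congr rfl fun k hk => ?_
  have hk' := mem_range.1 hk
  refine card_nbij' (fun b => Fin.snoc b (e - k)) (fun a i => a (Fin.castSucc i)) ?_ ?_ ?_ ?_
  · intro b hb
    obtain ⟨hb1, hb2⟩ := Finset.mem_filter.1 (Finset.mem_coe.1 hb)
    rw [mem_mons] at hb1
    simp only [coe_filter, Set.mem_ofPred_eq, mem_filter, mem_mons]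
    exact ⟨⟨by rw [sum_snoc, hb1]; omega, hb2⟩, by simpa using hb1⟩
  · intro a ha
    simp only [coe_filter, Set.mem_ofPred_eq, mem_filter, mem_mons] at ha
    refine Finset.mem_coe.2 (Finset.mem_filter.2 ?_)
    rw [mem_mons]
    obtain ⟨⟨h1, h2⟩, h3⟩ := ha
    refine ⟨h3, ?_⟩
    rw [sum_eq_init_add, h3] at h1
    show Fin.snoc _ _ ∈ M
    convert h2 using 1
    funext j
    induction j using Fin.lastCases with
    | last => simp; omega
    | cast j => simp
  · intro b _
    funext i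
    simp
  · intro a ha
    simp only [coe_filter, Set.mem_ofPred_eq, mem_filter, mem_mons] at ha
    obtain ⟨⟨h1, -⟩, h3⟩ := ha
    rw [sum_eq_init_add, h3] at h1
    funext j
    induction j using Fin.lastCases with
    | last => simp; omega
    | cast j => simp

/-- Beyond `q` every monomial is in the set, so the slices below `q` hold the same total. -/
lemma sum_num_slices_eq {M L : Set (Fin (n + 1) → ℕ)} (hM : HasPow a c M) (hL : HasPow a c L)
    {e q : ℕ} (hq : e < q ∨ ∀ b : Fin (n + 1) → ℕ, q ≤ b (Fin.last n) → b ∈ M ∧ b ∈ L)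
    (hnum : num L e = num M e) :
    ∑ k ∈ range (e + 1), num (slices a c L e q) k =
      ∑ k ∈ range (e + 1), num (slices a c M e q) k := by
  classical
  have key : ∀ N : Set (Fin (n + 1) → ℕ), HasPow a c N →
      (e < q ∨ ∀ b : Fin (n + 1) → ℕ, q ≤ b (Fin.last n) → b ∈ N) → ∀ k ∈ range (e + 1),
      num (slices a c N e q) k + (if e < k + q then 0 else (mons n k).card) =
        num {b : Fin n → ℕ | Fin.snoc b (e - k) ∈ N} k +
          (if e < k + q then 0 else ((mons n k).filter fun b => ¬ RedP a c b).card) := by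
    intro N hN hy k hk
    have hk' := mem_range.1 hk
    by_cases h : e < k + q
    · rw [if_pos h, if_pos h, num_slices hN (k := k) (t := e - k) (by omega) (by omega)]
    · rw [if_neg h, if_neg h, num_slices_high N h, Nat.add_comm]
      congr 1
      unfold num
      rw [filter_true_of_mem]
      exact fun b _ => hy.resolve_left (by omega) _ (by simp; omega)
  have h1 := sum_congr rfl (key M hM (hq.imp_right fun h b hb => (h b hb).1))
  have h2 := sum_congr rfl (key L hL (hq.imp_right fun h b hb => (h b hb).2))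
  rw [sum_add_distrib, sum_add_distrib, sum_num_fibres] at h1 h2
  omega

/-- A lex-plus-powers set with a given Hilbert function. -/
theorem exists_isPowLPP (F : Type*) [Field F] (hmono : ∀ i j, i ≤ j → j < c → a i ≤ a j)
    {M : Set (Fin n → ℕ)} (hM : IsUp M)
    (hpow : HasPow a c M) : ∃ L : Set (Fin n → ℕ), IsPowLPP a c L ∧ ∀ d, num L d = num M d := by
  classical
  have hmn : min c n ≤ n := min_le_right _ _
  obtain ⟨T, hT⟩ := Box.exists_lpp F hmn (a := fun i : Fin (min c n) => a i)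
    (fun i j h => hmono i j h (lt_of_lt_of_le j.2 (min_le_left c n)))
    {e : Fin n →₀ ℕ | ⇑e ∈ M}
    (fun i => hpow (Fin.castLE hmn i) (by simpa using lt_of_lt_of_le i.2 (min_le_left c n)) _
      (by simp))
  set fn : (Fin n → ℕ) → (Fin n →₀ ℕ) := fun a => Finsupp.equivFunOnFinite.symm a
  have hfd : ∀ a, (fn a).degree = ∑ i, a i := fun a => by simp [fn, Finsupp.degree_eq_sum]
  refine ⟨{b | fn b ∈ T (∑ i, b i)}, ⟨fun b hb i => ?_, fun i hi b hb => ?_,
    fun x hx b hb hra hrb hlt => ?_⟩, fun d => ?_⟩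
  · show fn (b + dl i) ∈ T (∑ j, (b + dl i) j)
    have h := (hT _).2.2.2.2 _ hb i
    have e1 : fn (b + dl i) = fn b + Finsupp.single i 1 := by
      ext j; simp [fn, dl, Finsupp.single_apply, Pi.single_apply, eq_comm]
    rw [e1, show ∑ j, (b + dl i) j = ∑ j, b j + 1 by simp [Pi.add_apply, sum_add_distrib, sum_dl]]
    exact h
  · exact (hT _).2.1 _ (hfd b) ⟨⟨i, lt_min hi i.2⟩, by simpa [fn] using hb⟩
  · show fn b ∈ T (∑ i, b i)
    rw [hb]
    refine (hT _).2.2.1 _ hx _ (by rw [hfd, hb])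
      (fun i => by
        simpa [fn] using hra (Fin.castLE hmn i) (by
          simpa using lt_of_lt_of_le i.2 (min_le_left c n)))
      (fun i => by
        simpa [fn] using hrb (Fin.castLE hmn i) (by
          simpa using lt_of_lt_of_le i.2 (min_le_left c n))) ?_
    obtain ⟨i, he, hlt'⟩ := Box.exists_first_of_lt hlt
    exact Finsupp.Lex.lt_iff.2 ⟨i, fun j hj => by simpa [fn] using he j hj, by simpa [fn] using hlt'⟩
  · have h4 := (hT d).2.2.2.1
    rw [finrank_monomialIdeal {e : Fin n →₀ ℕ | ⇑e ∈ M}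
      (fun e he e' hle => hM.mem_of_le he hle)] at h4
    have hl : num {b : Fin n → ℕ | fn b ∈ T (∑ i, b i)} d = (T d).card := by
      refine card_nbij' fn (fun e => ⇑e) ?_ ?_ ?_ ?_
      · intro b hb
        simp only [coe_filter, Set.mem_ofPred_eq, mem_mons, mem_coe] at hb ⊢
        exact hb.1 ▸ hb.2
      · intro e he
        simp only [coe_filter, Set.mem_ofPred_eq, mem_mons, mem_coe] at he ⊢
        have h0 : ∑ i, e i = d := by rw [← (hT d).1 e he, Finsupp.degree_eq_sum]
        exact ⟨h0, by rw [h0, show fn ⇑e = e from Finsupp.ext fun i => rfl]; exact he⟩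
      · intro b _; rfl
      · intro e _; exact Finsupp.ext fun i => rfl
    rw [hl, h4, num, ← Nat.card_eq_finsetCard]
    exact Nat.card_congr
      { toFun := fun e => ⟨⇑e.1, mem_filter.2 ⟨mem_mons.2 (by
          rw [← Finsupp.degree_eq_sum]; exact e.2.1), e.2.2⟩⟩
        invFun := fun b => ⟨fn b.1, (hfd _).trans (mem_mons.1 (mem_filter.1 b.2).1),
          (mem_filter.1 b.2).2⟩
        left_inv := fun e => Subtype.ext (Finsupp.ext fun i => rfl)
        right_inv := fun b => Subtype.ext rfl }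

/-- The lex-plus-powers set has the fewest members free of the last variable. -/
theorem num_base_le (F : Type*) [Field F] (hmono : ∀ i j, i ≤ j → j < c → a i ≤ a j) (ha : 0 < a n) {M L : Set (Fin (n + 1) → ℕ)}
    (hpow : HasPow a c M) {e q : ℕ} (hq0 : 0 < q) (hqa : c ≤ n ∨ q ≤ a n)
    (hy : e < q ∨ ∀ b : Fin (n + 1) → ℕ, q ≤ b (Fin.last n) → b ∈ M ∧ b ∈ L)
    (hst : StabBelow M e q) (hL : IsPowLPP a c L) (hnum : num L e = num M e) :
    num (Free.base L) e ≤ num (Free.base M) e := by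
  classical
  obtain ⟨A, hA, hAnum⟩ := exists_isPowLPP F hmono (isUp_slices (a := a) (c := c) hst)
    (hasPow_slices M e q)
  have hb : ∀ N : Set (Fin (n + 1) → ℕ), HasPow a c N →
      num (Pow.slices a c N e q) e = num (Free.base N) e := fun N hN =>
    num_slices hN (t := 0) (by omega) hq0
  rw [← hb L hL.2.1, ← hb M hpow, ← hAnum]
  by_contra hlt
  rw [not_le] at hlt
  have hB := hL.slices (e := e) hqa
  have hcmp : ∀ k ≤ e, num A k ≤ num (Pow.slices a c L e q) k := by
    intro k hk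
    by_cases hkq : e < k + q
    swap
    · rw [hAnum, num_slices_high M hkq, num_slices_high L hkq]
    by_contra hbad
    rw [not_le] at hbad
    obtain ⟨u, hu, hu'⟩ := exists_mem_notMem_of_card_lt_card (s := (mons n k).filter
      (· ∈ Pow.slices a c L e q)) (t := (mons n k).filter (· ∈ A)) hbad
    obtain ⟨hu1, huA⟩ := mem_filter.1 hu
    have huk := mem_mons.1 hu1
    have huB : u ∉ Pow.slices a c L e q := fun h => hu' (mem_filter.2 ⟨hu1, h⟩)
    have hru : RedP a c u := by_contra fun h => huB (hB.2.1.mem_of_not_red h)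
    refine absurd (card_le_card (s := (mons n e).filter (· ∈ Pow.slices a c L e q))
      (t := (mons n e).filter (· ∈ A)) fun X hX => ?_) (not_le.2 hlt)
    obtain ⟨hX1, hX2⟩ := mem_filter.1 hX
    refine mem_filter.2 ⟨hX1, ?_⟩
    have hXe := mem_mons.1 hX1
    by_cases hrX : RedP a c X
    swap
    · exact hA.2.1.mem_of_not_red hrX
    obtain ⟨P, hP1, hP2, hP3⟩ := exists_prefix X (k := k) (by omega)
    have hrP : RedP a c P := fun i hi => lt_of_le_of_lt (hP1 i) (hrX i hi)
    refine hA.1.mem_of_le ?_ hP1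
    rcases lt_trichotomy (toLex u) (toLex P) with h | h | h
    · exact hA.2.2 u huA P (hP2.trans huk.symm) hru hrP h
    · exact toLex.injective h ▸ huA
    · exfalso
      apply huB
      have hXL : Fin.snoc X 0 ∈ L := by
        rcases hX2 with h' | h' | h'
        · omega
        · exact absurd hrX h'
        · simpa [hXe] using h'.2
      refine Or.inr (Or.inr ⟨by omega, hL.2.2 _ hXL _ ?_ ((red_snoc _).2 ⟨hrX, fun _ => ha⟩)
        ((red_snoc _).2 ⟨hru, fun hn => by omega⟩)
        (snoc_lex (prefix_lt hP1 hP3 (huk.trans hP2.symm) h) _ _)⟩)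
      rw [sum_snoc, sum_snoc, huk, hXe]
      omega
  have h1 : ∑ k ∈ range (e + 1), num A k <
      ∑ k ∈ range (e + 1), num (Pow.slices a c L e q) k :=
    sum_lt_sum (fun k hk => hcmp k (Nat.lt_succ_iff.1 (mem_range.1 hk)))
      ⟨e, mem_range.2 e.lt_succ_self, hlt⟩
  rw [sum_congr rfl (fun k _ => hAnum k), sum_num_slices_eq hpow hL.2.1 hy hnum] at h1
  exact lt_irrefl _ h1

/-- The lex-plus-powers set has the most members just below the power. -/
theorem num_top_le (F : Type*) [Field F] (hmono : ∀ i j, i ≤ j → j < c → a i ≤ a j) (ha : 0 < a n) {M L : Set (Fin (n + 1) → ℕ)}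
    (hpow : HasPow a c M) {e : ℕ} (he : a n ≤ e + 1)
    (hy : ∀ b : Fin (n + 1) → ℕ, a n ≤ b (Fin.last n) → b ∈ M ∧ b ∈ L)
    (hst : StabBelow M e (a n)) (hL : IsPowLPP a c L) (hnum : num L e = num M e) :
    num (Pow.top (a n) M) (e + 1 - a n) ≤ num (Pow.top (a n) L) (e + 1 - a n) := by
  classical
  obtain ⟨A, hA, hAnum⟩ := exists_isPowLPP F hmono (isUp_slices (a := a) (c := c) hst)
    (hasPow_slices M e (a n))
  set k₀ := e + 1 - a n with hk₀
  have hb : ∀ N : Set (Fin (n + 1) → ℕ), HasPow a c N →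
      num (Pow.slices a c N e (a n)) k₀ = num (Pow.top (a n) N) k₀ := fun N hN =>
    num_slices hN (t := a n - 1) (by omega) (by omega)
  rw [← hb L hL.2.1, ← hb M hpow, ← hAnum]
  by_contra hlt
  rw [not_le] at hlt
  have hB := hL.slices (e := e) (q := a n) (Or.inr le_rfl)
  obtain ⟨u, hu, hu'⟩ := exists_mem_notMem_of_card_lt_card (s := (mons n k₀).filter
    (· ∈ Pow.slices a c L e (a n))) (t := (mons n k₀).filter (· ∈ A)) hlt
  obtain ⟨hu1, huA⟩ := mem_filter.1 hu
  have huk := mem_mons.1 hu1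
  have huB : u ∉ Pow.slices a c L e (a n) := fun h => hu' (mem_filter.2 ⟨hu1, h⟩)
  have hru : RedP a c u := by_contra fun h => huB (hB.2.1.mem_of_not_red h)
  have hcmp : ∀ k ≤ e, num (Pow.slices a c L e (a n)) k ≤ num A k := by
    intro k hk
    by_cases hkq : e < k + a n
    swap
    · rw [hAnum, num_slices_high M hkq, num_slices_high L hkq]
    refine card_le_card fun X hX => ?_
    obtain ⟨hX1, hX2⟩ := mem_filter.1 hX
    refine mem_filter.2 ⟨hX1, ?_⟩
    have hXk := mem_mons.1 hX1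
    by_cases hrX : RedP a c X
    swap
    · exact hA.2.1.mem_of_not_red hrX
    obtain ⟨P, hP1, hP2, hP3⟩ := exists_prefix X (k := k₀) (by omega)
    have hrP : RedP a c P := fun i hi => lt_of_le_of_lt (hP1 i) (hrX i hi)
    refine hA.1.mem_of_le ?_ hP1
    rcases lt_trichotomy (toLex u) (toLex P) with h | h | h
    · exact hA.2.2 u huA P (hP2.trans huk.symm) hru hrP h
    · exact toLex.injective h ▸ huA
    · exfalso
      apply huB
      have hXL : Fin.snoc X (e - k) ∈ L := by
        rcases hX2 with h' | h' | h'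
        · omega
        · exact absurd hrX h'
        · simpa [hXk] using h'.2
      refine Or.inr (Or.inr ⟨by omega, hL.2.2 _ hXL _ ?_
        ((red_snoc _).2 ⟨hrX, fun _ => by omega⟩) ((red_snoc _).2 ⟨hru, fun _ => by omega⟩)
        (snoc_lex (prefix_lt hP1 hP3 (huk.trans hP2.symm) h) _ _)⟩)
      rw [sum_snoc, sum_snoc, huk, hXk]
      omega
  have h1 : ∑ k ∈ range (e + 1), num (Pow.slices a c L e (a n)) k <
      ∑ k ∈ range (e + 1), num A k :=
    sum_lt_sum (fun k hk => hcmp k (Nat.lt_succ_iff.1 (mem_range.1 hk)))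
      ⟨k₀, mem_range.2 (by omega), hlt⟩
  rw [sum_congr rfl (fun k _ => hAnum k), sum_num_slices_eq hpow hL.2.1 (Or.inr hy) hnum] at h1
  exact lt_irrefl _ h1

end Vale.Agent.P200.Betti.Pow
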