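import Vale.Agent.P200.Betti.Free.Step
import Vale.Agent.P200.Betti.Pow.Lpp
import Vale.Agent.P200.Betti.Pow.BaseChange

/-!
Adding a variable, free or with bounded exponent, keeps the lex-plus-powers bound.
-/

namespace Vale.Agent.P200.Betti.Pow

open Finset Module
open Vale.Agent.P200.Betti.Free (Pt dl mons mem_mons cells mem_cells IsUp num num_le num_succ base
  topNum topNum_eq pc pc_le_succ choose_succ_eq sum_filter_split sum_eq_init_add sum_snoc
  outCells card_outCells rkM hM sp mem_sp rkM_add_le hM_le_slice hM_slice)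

variable (F : Type*) [Field F]

open Classical in
/-- The bound, together with a linear formula for the extremal sets. -/
def Bound (a : ℕ → ℕ) (n c : ℕ) : Prop :=
  (∀ p d, ∀ M L : Set (Fin n → ℕ), IsUp M → HasPow a c M → IsPowLPP a c L →
    (∀ k, num L k = num M k) → hM F M p d ≤ hM F L p d) ∧
  ∀ p d, ∃ κ κ' : ℕ, ∃ φ ψ : (Fin n → ℕ) → ℕ, (∀ b, φ b ≤ pc n p) ∧
    (∀ b, ψ b ≤ n.choose p) ∧ ∀ L : Set (Fin n → ℕ), IsPowLPP a c L →
      hM F L p d + κ' + ∑ b ∈ (mons n d).filter (· ∈ L), ψ b =
        κ + ∑ b ∈ (mons n (d + 1)).filter (· ∈ L), φ b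

variable {F} {n c : ℕ} {a : ℕ → ℕ}

/-- A sum over more terms, each at most `C`, grows by at most `C` for each. -/
lemma sum_grow {α : Type*} [DecidableEq α] {s t : Finset α} (h : s ⊆ t) {f : α → ℕ} {C : ℕ}
    (hf : ∀ x, f x ≤ C) : ∑ x ∈ t, f x + C * s.card ≤ ∑ x ∈ s, f x + C * t.card := by
  rw [← sum_sdiff h, ← card_sdiff_add_card_eq_card h, Nat.mul_add]
  have h1 : ∑ x ∈ t \ s, f x ≤ C * (t \ s).card :=
    (sum_le_card_nsmul _ _ C fun x _ => hf x).trans (by rw [smul_eq_mul, mul_comm])
  omega

open Classical in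
lemma IsPowLPP.filter_subset {L L' : Set (Fin n → ℕ)} (hL : IsPowLPP a c L)
    (hL' : IsPowLPP a c L') {d : ℕ} (h : num L d ≤ num L' d) :
    (mons n d).filter (· ∈ L) ⊆ (mons n d).filter (· ∈ L') := fun b hb => by
  obtain ⟨h1, h2⟩ := mem_filter.1 hb
  exact mem_filter.2 ⟨h1, hL.subset hL' h h2 (mem_mons.1 h1)⟩

/-- Fewer members against the extremal set. -/
lemma Bound.low (h : Bound F a n c) {A B : Set (Fin n → ℕ)} (hA : IsPowLPP a c A)
    (hB : IsPowLPP a c B) {p d : ℕ} (h0 : num B d ≤ num A d)
    (h1 : num B (d + 1) ≤ num A (d + 1)) :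
    hM F A p d + pc n p * num B (d + 1) ≤ hM F B p d + pc n p * num A (d + 1) := by
  classical
  obtain ⟨κ, κ', φ, ψ, hφ, -, hf⟩ := h.2 p d
  have hAf := hf A hA
  have hBf := hf B hB
  have hψ : ∑ b ∈ (mons n d).filter (· ∈ B), ψ b ≤ ∑ b ∈ (mons n d).filter (· ∈ A), ψ b :=
    sum_le_sum_of_subset (hB.filter_subset hA h0)
  have hφ' : ∑ b ∈ (mons n (d + 1)).filter (· ∈ A), φ b + pc n p * num B (d + 1) ≤
      ∑ b ∈ (mons n (d + 1)).filter (· ∈ B), φ b + pc n p * num A (d + 1) :=
    sum_grow (hB.filter_subset hA h1) hφ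
  omega

/-- More members against the extremal set. -/
lemma Bound.high (h : Bound F a n c) {A B : Set (Fin n → ℕ)} (hA : IsPowLPP a c A)
    (hB : IsPowLPP a c B) {p d : ℕ} (h0 : num A d ≤ num B d)
    (h1 : num A (d + 1) ≤ num B (d + 1)) :
    hM F A p d + n.choose p * num A d ≤ hM F B p d + n.choose p * num B d := by
  classical
  obtain ⟨κ, κ', φ, ψ, -, hψ, hf⟩ := h.2 p d
  have hAf := hf A hA
  have hBf := hf B hB
  have hφ : ∑ b ∈ (mons n (d + 1)).filter (· ∈ A), φ b ≤
      ∑ b ∈ (mons n (d + 1)).filter (· ∈ B), φ b :=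
    sum_le_sum_of_subset (hA.filter_subset hB h1)
  have hψ' : ∑ b ∈ (mons n d).filter (· ∈ B), ψ b + n.choose p * num A d ≤
      ∑ b ∈ (mons n d).filter (· ∈ A), ψ b + n.choose p * num B d :=
    sum_grow (hA.filter_subset hB h0) hψ
  omega

open Classical in
/-- The linear formula gains one variable. -/
lemma formula_plain {L : Set (Fin (n + 1) → ℕ)} {p d κ κ' : ℕ} {φ ψ : (Fin n → ℕ) → ℕ}
    (hLs : hM F L p d + pc n p * num L d = hM F (Free.base L) p d + pc n p * topNum L d)
    (hb : hM F (Free.base L) p d + κ' + ∑ b ∈ (mons n d).filter (· ∈ Free.base L), ψ b =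
      κ + ∑ b ∈ (mons n (d + 1)).filter (· ∈ Free.base L), φ b) :
    hM F L p d + κ' + ∑ b ∈ (mons (n + 1) d).filter (· ∈ L),
        (pc n p + if b (Fin.last n) = 0 then ψ (fun i => b i.castSucc) else 0) =
      κ + ∑ b ∈ (mons (n + 1) (d + 1)).filter (· ∈ L),
        (if b (Fin.last n) = 0 then φ (fun i => b i.castSucc) else pc n p) := by
  have hsplit : ∑ b ∈ (mons (n + 1) (d + 1)).filter (· ∈ L),
      (if b (Fin.last n) = 0 then φ (fun i => b i.castSucc) else pc n p) =
      ∑ b ∈ (mons n (d + 1)).filter (· ∈ Free.base L), φ b + pc n p * topNum L d := by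
    rw [← sum_filter_split L (d + 1) φ, ← topNum_eq L d (pc n p), ← sum_add_distrib]
    exact sum_congr rfl fun b _ => by split_ifs <;> simp
  rw [sum_add_distrib, sum_const, smul_eq_mul, sum_filter_split L d ψ, hsplit, mul_comm]
  unfold num at hLs
  omega

/-- One more free variable. -/
theorem Bound.free (hmono : ∀ i j, i ≤ j → j < c → a i ≤ a j) (ha : 0 < a n) (hc : c ≤ n) (h : Bound F a n c) : Bound F a (n + 1) c := by
  classical
  refine ⟨fun p d M L hup hpow hL hnum => ?_, fun p d => ?_⟩
  · obtain ⟨r, hr⟩ := exists_free (F := F)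
    obtain ⟨M', hup', hpow', hnum', hst1, hst2, hle⟩ :=
      exists_stable r (q := d + 2) (fun t ht _ => hr t ht) (Or.inl hc) hup hpow d (d + 1)
    obtain ⟨A, hA, hAnum⟩ := exists_isPowLPP F hmono (Free.isUp_base hup') (hasPow_base hpow')
    have hL0 := hL.base ha
    have hnd : num L d = num M' d := (hnum d).trans (hnum' d).symm
    have hnd1 : num L (d + 1) = num M' (d + 1) := (hnum _).trans (hnum' _).symm
    have hl0 : num (Free.base L) d ≤ num A d := by
      rw [hAnum]
      exact num_base_le F hmono ha hpow' (by omega) (Or.inl hc) (Or.inl (by omega)) hst1 hL hnd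
    have hl1 : num (Free.base L) (d + 1) ≤ num A (d + 1) := by
      rw [hAnum]
      exact num_base_le F hmono ha hpow' (by omega) (Or.inl hc) (Or.inl (by omega)) hst2 hL hnd1
    have hlow := h.low (p := p) hA hL0 hl0 hl1
    have hsl := hM_le_slice (F := F) hup' p d
    have hih := h.1 p d (Free.base M') A (Free.isUp_base hup') (hasPow_base hpow') hA hAnum
    have hLs := hM_slice (F := F) hL.1 (hL.stableAt hc) p d (rkM_add_le hL0.1 p d)
    have e1 : pc n p * num M' (d + 1) =
        pc n p * num A (d + 1) + pc n p * topNum M' d := by rw [num_succ, hAnum, Nat.mul_add]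
    have e2 : pc n p * num L (d + 1) =
        pc n p * num (Free.base L) (d + 1) + pc n p * topNum L d := by rw [num_succ, Nat.mul_add]
    have e3 : pc n p * num L (d + 1) = pc n p * num M' (d + 1) := by rw [hnd1]
    have e4 : pc n p * num L d = pc n p * num M' d := by rw [hnd]
    have := hle p d
    omega
  · obtain ⟨κ, κ', φ, ψ, hφ, hψ, hf⟩ := h.2 p d
    refine ⟨κ, κ', fun b => if b (Fin.last n) = 0 then φ (fun i => b i.castSucc) else pc n p,
      fun b => pc n p + if b (Fin.last n) = 0 then ψ (fun i => b i.castSucc) else 0,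
      fun b => ?_, fun b => ?_, fun L hL => ?_⟩
    · dsimp only
      split_ifs
      · exact (hφ _).trans (pc_le_succ n p)
      · exact pc_le_succ n p
    · rw [choose_succ_eq]
      dsimp only
      split_ifs
      · linarith [hψ (fun i => b i.castSucc)]
      · omega
    exact formula_plain (hM_slice (F := F) hL.1 (hL.stableAt hc) p d
      (rkM_add_le (hL.base ha).1 p d)) (hf _ (hL.base ha))

open Classical in
lemma sum_filter_slice (L : Set (Fin (n + 1) → ℕ)) {t D : ℕ} (ht : t ≤ D)
    (u : (Fin n → ℕ) → ℕ) :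
    ∑ b ∈ (mons (n + 1) D).filter (· ∈ L),
        (if b (Fin.last n) = t then u (fun i => b i.castSucc) else 0) =
      ∑ b ∈ (mons n (D - t)).filter (· ∈ {b : Fin n → ℕ | Fin.snoc b t ∈ L}), u b := by
  rw [← sum_filter]
  have hsnoc : ∀ b : Fin (n + 1) → ℕ, b (Fin.last n) = t →
      (Fin.snoc (fun i => b (Fin.castSucc i)) t : Fin (n + 1) → ℕ) = b := fun b hb => by
    funext j
    induction j using Fin.lastCases with
    | last => simp [hb]
    | cast j => simp
  refine sum_nbij' (fun b i => b (Fin.castSucc i)) (fun b => Fin.snoc b t) ?_ ?_ ?_ ?_ ?_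
  · intro b hb
    obtain ⟨hb, h0⟩ := Finset.mem_filter.1 (Finset.mem_coe.1 hb)
    obtain ⟨h1, h2⟩ := Finset.mem_filter.1 hb
    rw [mem_mons, sum_eq_init_add, h0] at h1
    refine Finset.mem_coe.2 (Finset.mem_filter.2 ⟨mem_mons.2 (by omega), ?_⟩)
    show Fin.snoc _ t ∈ L
    rwa [hsnoc b h0]
  · intro b hb
    obtain ⟨h1, h2⟩ := Finset.mem_filter.1 (Finset.mem_coe.1 hb)
    refine Finset.mem_coe.2 (Finset.mem_filter.2
      ⟨Finset.mem_filter.2 ⟨mem_mons.2 ?_, h2⟩, by simp⟩)
    rw [sum_snoc, mem_mons.1 h1]
    omega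
  · intro b hb
    exact hsnoc b (Finset.mem_filter.1 (Finset.mem_coe.1 hb)).2
  · intro b _
    funext i
    simp
  · intro b _
    rfl

lemma card_out_add (M : Set (Fin n → ℕ)) (p d : ℕ) :
    (outCells M p d).card + n.choose p * num M d = n.choose p * (mons n d).card := by
  rw [card_outCells, ← Nat.mul_add, Nat.sub_add_cancel (num_le M d)]

/-- One more variable with bounded exponent. -/
theorem Bound.bounded {r : Tw F} (hmono : ∀ i j, i ≤ j → j < n + 1 → a i ≤ a j) (ha : 2 ≤ a n)
    (hr : Fits r (a n)) (h : Bound F a n n) :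
    Bound F a (n + 1) (n + 1) := by
  classical
  have ha0 : 0 < a n := by omega
  have hiff : ∀ i : Fin n, (i : ℕ) < n ↔ (i : ℕ) < n + 1 := fun i => by omega
  have hy : ∀ M : Set (Fin (n + 1) → ℕ), HasPow a (n + 1) M →
      ∀ b : Fin (n + 1) → ℕ, a n ≤ b (Fin.last n) → b ∈ M :=
    fun M hM b hb => hM (Fin.last n) (by simp) b (by simpa using hb)
  have hslice : ∀ L : Set (Fin (n + 1) → ℕ), IsPowLPP a (n + 1) L → ∀ p d,
      hM F L p d + pc n p * num L d + xTop (a n) L p d =
        hM F (Free.base L) p d + pc n p * topNum L d + hTop F (a n) L p d :=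
    fun L hL p d => hM_split ha0 hL.1 (hy L hL.2.1) (hL.stabBelow (Or.inr le_rfl)) p d
  refine ⟨fun p d M L hup hpow hL hnum => ?_, fun p d => ?_⟩
  · obtain ⟨M', hup', hpow', hnum', hst1, hst2, hle⟩ :=
      exists_stable r (q := a n) hr.partial_ne
        (Or.inr ⟨hr, rfl, fun i hi => hmono i n hi.le (by omega)⟩) hup hpow d (d + 1)
    have hyy : ∀ b : Fin (n + 1) → ℕ, a n ≤ b (Fin.last n) → b ∈ M' ∧ b ∈ L :=
      fun b hb => ⟨hy M' hpow' b hb, hy L hL.2.1 b hb⟩
    have hpb : HasPow a n (Free.base M') := (hasPow_base hpow').congr fun i => (hiff i).1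
    obtain ⟨A, hA, hAnum⟩ := exists_isPowLPP F (fun i j h h' => hmono i j h (by omega)) (Free.isUp_base hup') hpb
    have hL0 : IsPowLPP a n (Free.base L) := (hL.base ha0).congr hiff
    have hnd : num L d = num M' d := (hnum d).trans (hnum' d).symm
    have hnd1 : num L (d + 1) = num M' (d + 1) := (hnum _).trans (hnum' _).symm
    have hl0 : num (Free.base L) d ≤ num A d := by
      rw [hAnum]
      exact num_base_le F hmono ha0 hpow' ha0 (Or.inr le_rfl) (Or.inr hyy) hst1 hL hnd
    have hl1 : num (Free.base L) (d + 1) ≤ num A (d + 1) := by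
      rw [hAnum]
      exact num_base_le F hmono ha0 hpow' ha0 (Or.inr le_rfl) (Or.inr hyy) hst2 hL hnd1
    have hlow := h.low (p := p) hA hL0 hl0 hl1
    have hsl := hM_le_split (F := F) ha0 hup' (hy M' hpow') p d
    have hih := h.1 p d (Free.base M') A (Free.isUp_base hup') hpb hA hAnum
    have hLs := hslice L hL p d
    have htop : hTop F (a n) M' p d + xTop (a n) L p d ≤ hTop F (a n) L p d + xTop (a n) M' p d := by
      cases p with
      | zero => exact le_rfl
      | succ q =>
        simp only [hTop, xTop]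
        split_ifs with hd
        swap
        · exact le_rfl
        have hpt : HasPow a n (Pow.top (a n) M') := (hasPow_top hpow').congr fun i => (hiff i).1
        obtain ⟨A', hA', hA'num⟩ := exists_isPowLPP F (fun i j h h' => hmono i j h (by omega)) (isUp_top hup') hpt
        have hL1 : IsPowLPP a n (Pow.top (a n) L) := (hL.top ha0).congr hiff
        have ht0 : num A' (d + 1 - a n) ≤ num (Pow.top (a n) L) (d + 1 - a n) := by
          rw [hA'num]
          exact num_top_le F hmono ha0 hpow' hd hyy hst1 hL hnd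
        have ht1 : num A' (d + 1 - a n + 1) ≤ num (Pow.top (a n) L) (d + 1 - a n + 1) := by
          rw [hA'num, show d + 1 - a n + 1 = d + 1 + 1 - a n by omega]
          exact num_top_le F hmono ha0 hpow' (by omega) hyy hst2 hL hnd1
        have hhigh := h.high (p := q) hA' hL1 ht0 ht1
        have hih' := h.1 q (d + 1 - a n) (Pow.top (a n) M') A' (isUp_top hup') hpt hA' hA'num
        have o1 := card_out_add (Pow.top (a n) M') q (d + 1 - a n)
        have o2 := card_out_add (Pow.top (a n) L) q (d + 1 - a n)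
        rw [hA'num] at hhigh
        omega
    have e1 : pc n p * num M' (d + 1) =
        pc n p * num A (d + 1) + pc n p * topNum M' d := by rw [num_succ, hAnum, Nat.mul_add]
    have e2 : pc n p * num L (d + 1) =
        pc n p * num (Free.base L) (d + 1) + pc n p * topNum L d := by rw [num_succ, Nat.mul_add]
    have e3 : pc n p * num L (d + 1) = pc n p * num M' (d + 1) := by rw [hnd1]
    have e4 : pc n p * num L d = pc n p * num M' d := by rw [hnd]
    have := hle p d
    omega
  · obtain ⟨κ, κ', φ, ψ, hφ, hψ, hf⟩ := h.2 p d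
    by_cases hpd : 1 ≤ p ∧ a n ≤ d + 1
    swap
    · refine ⟨κ, κ', fun b => if b (Fin.last n) = 0 then φ (fun i => b i.castSucc) else pc n p,
        fun b => pc n p + if b (Fin.last n) = 0 then ψ (fun i => b i.castSucc) else 0,
        fun b => ?_, fun b => ?_, fun L hL => ?_⟩
      · dsimp only
        split_ifs
        · exact (hφ _).trans (pc_le_succ n p)
        · exact pc_le_succ n p
      · rw [choose_succ_eq]
        dsimp only
        split_ifs
        · linarith [hψ (fun i => b i.castSucc)]
        · omega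
      refine formula_plain ?_ (hf _ ((hL.base ha0).congr hiff))
      have hLs := hslice L hL p d
      cases p with
      | zero => simpa [hTop, xTop] using hLs
      | succ q =>
        have hd : ¬ a n ≤ d + 1 := fun hd => hpd ⟨by omega, hd⟩
        simpa [hTop, xTop, hd] using hLs
    obtain ⟨q, rfl⟩ := Nat.exists_eq_add_of_le' hpd.1
    have hd := hpd.2
    obtain ⟨κ₁, κ₁', φ₁, ψ₁, hφ₁, hψ₁, hf₁⟩ := h.2 q (d + 1 - a n)
    refine ⟨κ + κ₁, κ' + κ₁' + n.choose q * (mons n (d + 1 - a n)).card,
      fun b => if b (Fin.last n) = 0 then φ (fun i => b i.castSucc) else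
        n.choose q + if b (Fin.last n) = a n - 1 then φ₁ (fun i => b i.castSucc) else 0,
      fun b => if b (Fin.last n) = 0 then n.choose q + ψ (fun i => b i.castSucc) else
        if b (Fin.last n) = a n - 1 then ψ₁ (fun i => b i.castSucc) else n.choose q,
      fun b => ?_, fun b => ?_, fun L hL => ?_⟩
    · dsimp only
      split_ifs
      · exact (hφ _).trans (pc_le_succ n (q + 1))
      · show _ ≤ (n + 1).choose q
        rw [choose_succ_eq]
        linarith [hφ₁ (fun i => b i.castSucc)]
      · show _ ≤ (n + 1).choose q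
        rw [choose_succ_eq]
        omega
    · rw [choose_succ_eq]
      show _ ≤ n.choose (q + 1) + n.choose q
      dsimp only
      split_ifs
      · linarith [hψ (fun i => b i.castSucc)]
      · linarith [hψ₁ (fun i => b i.castSucc)]
      · omega
    have hLs := hslice L hL (q + 1) d
    simp only [hTop, xTop, if_pos hd] at hLs
    rw [show pc n (q + 1) = n.choose q from rfl] at hLs
    have hb := hf _ ((hL.base ha0).congr hiff)
    have ht := hf₁ _ ((hL.top ha0).congr hiff)
    have ho := card_out_add (Pow.top (a n) L) q (d + 1 - a n)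
    have hcard : ∑ b ∈ (mons (n + 1) d).filter (· ∈ L),
        (if b (Fin.last n) = a n - 1 then n.choose q else 0) =
        n.choose q * num (Pow.top (a n) L) (d + 1 - a n) := by
      rw [sum_filter_slice L (show a n - 1 ≤ d by omega) (fun _ => n.choose q), sum_const,
        smul_eq_mul, mul_comm, show d - (a n - 1) = d + 1 - a n by omega]
      rfl
    have hψsum : ∑ b ∈ (mons (n + 1) d).filter (· ∈ L),
        (if b (Fin.last n) = 0 then n.choose q + ψ (fun i => b i.castSucc) else
          if b (Fin.last n) = a n - 1 then ψ₁ (fun i => b i.castSucc) else n.choose q) +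
        n.choose q * num (Pow.top (a n) L) (d + 1 - a n) =
        n.choose q * num L d + ∑ b ∈ (mons n d).filter (· ∈ Free.base L), ψ b +
          ∑ b ∈ (mons n (d + 1 - a n)).filter (· ∈ Pow.top (a n) L), ψ₁ b := by
      rw [← hcard, ← sum_add_distrib, ← sum_filter_split L d ψ,
        show n.choose q * num L d = ∑ b ∈ (mons (n + 1) d).filter (· ∈ L), n.choose q by
          rw [sum_const, smul_eq_mul, mul_comm]; rfl]
      rw [show ∑ b ∈ (mons n (d + 1 - a n)).filter (· ∈ Pow.top (a n) L), ψ₁ b =
          ∑ b ∈ (mons (n + 1) d).filter (· ∈ L),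
            (if b (Fin.last n) = a n - 1 then ψ₁ (fun i => b i.castSucc) else 0) by
          rw [sum_filter_slice L (show a n - 1 ≤ d by omega) ψ₁,
            show d - (a n - 1) = d + 1 - a n by omega]; rfl,
        ← sum_add_distrib, ← sum_add_distrib]
      exact sum_congr rfl fun b _ => by split_ifs <;> omega
    have hφsum : ∑ b ∈ (mons (n + 1) (d + 1)).filter (· ∈ L),
        (if b (Fin.last n) = 0 then φ (fun i => b i.castSucc) else
          n.choose q + if b (Fin.last n) = a n - 1 then φ₁ (fun i => b i.castSucc) else 0) =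
        ∑ b ∈ (mons n (d + 1)).filter (· ∈ Free.base L), φ b + n.choose q * topNum L d +
          ∑ b ∈ (mons n (d + 1 - a n + 1)).filter (· ∈ Pow.top (a n) L), φ₁ b := by
      rw [show ∑ b ∈ (mons n (d + 1 - a n + 1)).filter (· ∈ Pow.top (a n) L), φ₁ b =
          ∑ b ∈ (mons (n + 1) (d + 1)).filter (· ∈ L),
            (if b (Fin.last n) = a n - 1 then φ₁ (fun i => b i.castSucc) else 0) by
          rw [sum_filter_slice L (show a n - 1 ≤ d + 1 by omega) φ₁,
            show d + 1 - (a n - 1) = d + 1 - a n + 1 by omega]; rfl,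
        ← sum_filter_split L (d + 1) φ, ← topNum_eq L d (n.choose q), ← sum_add_distrib,
        ← sum_add_distrib]
      exact sum_congr rfl fun b _ => by split_ifs <;> omega
    dsimp only
    rw [hφsum]
    omega

/-- No variables. -/
theorem bound_zero : Bound F a 0 c := by
  classical
  have hmons : ∀ (k : ℕ), ∀ b ∈ mons 0 k, b = 0 := fun _ _ _ => Subsingleton.elim _ _
  have hrk : ∀ (M : Set (Fin 0 → ℕ)) p d, rkM F M p d = 0 := by
    intro M p d
    cases p with
    | zero => rfl
    | succ q =>
      show finrank F _ = 0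
      have hbot : sp F (cells 0 (q + 1) d) = ⊥ := by
        rw [Submodule.eq_bot_iff]
        intro f hf
        funext z
        refine mem_sp.1 hf z fun hz => ?_
        have h1 := (mem_cells.1 hz).1
        have h2 := card_le_univ z.1
        simp at h2
        simp [h2] at h1
      rw [hbot, Submodule.map_bot, finrank_bot]
  have hM0 : ∀ (M : Set (Fin 0 → ℕ)) p d, hM F M p d = (outCells M p d).card := fun M p d => by
    simp [Free.hM, hrk]
  refine ⟨fun p d M L _ _ _ hnum => ?_, fun p d => ?_⟩
  · rw [hM0, hM0, card_outCells, card_outCells, hnum]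
  · refine ⟨Nat.choose 0 p * (mons 0 d).card, 0, fun _ => 0, fun _ => Nat.choose 0 p,
      fun _ => Nat.zero_le _, fun _ => le_rfl, fun L _ => ?_⟩
    rw [hM0, add_zero, sum_const, smul_eq_mul, mul_comm _ (Nat.choose 0 p), sum_const_zero,
      add_zero]
    exact card_out_add L p d

/-- The bound does not depend on the field extension. -/
theorem Bound.baseChange {K : Type*} (L : Type*) [Field K] [Field L] [Algebra K L] :
    Bound L a n c ↔ Bound K a n c := by
  simp only [Bound, hM_baseChange K L]

universe u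

variable (K : Type u) [Field K]

/-- The bound for every number of variables, over every field. -/
theorem bound : ∀ {n c : ℕ}, c ≤ n → (∀ i j, i ≤ j → j < c → a i ≤ a j) →
    (∀ i, i < c → 2 ≤ a i) → Bound K a n c := by
  intro n
  induction n with
  | zero => exact fun _ _ _ => bound_zero
  | succ m ih =>
    intro c hc hmono h2
    by_cases h : c ≤ m
    · -- the exponent of a free variable plays no role
      set a' := Function.update a m 1
      have hcongr : ∀ k, ∀ {M : Set (Fin k → ℕ)}, HasPow a' c M ↔ HasPow a c M := fun k M =>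
        forall₂_congr fun i hi => by
          rw [show a' i = a i from Function.update_of_ne (by omega) _ _]
      have hred : ∀ k, ∀ b : Fin k → ℕ, RedP a' c b ↔ RedP a c b := fun k b =>
        forall₂_congr fun i hi => by
          rw [show a' i = a i from Function.update_of_ne (by omega) _ _]
      have hiff : ∀ k, Bound K a' k c ↔ Bound K a k c := fun k => by
        simp only [Bound, IsPowLPP, hcongr k, hred k]
      refine (hiff _).1 (Bound.free (fun i j hij hj => ?_) (by simp [a']) h ((hiff _).2 (ih h hmono h2)))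
      rw [show a' i = a i from Function.update_of_ne (by omega) _ _,
        show a' j = a j from Function.update_of_ne (by omega) _ _]
      exact hmono i j hij hj
    · obtain rfl : c = m + 1 := by omega
      obtain ⟨L, _, _, r, hr⟩ := exists_fits_extension K (a := a m) (by
        have := h2 m (Nat.lt_succ_self m)
        omega)
      exact (Bound.baseChange L).1 (Bound.bounded hmono (h2 m (Nat.lt_succ_self m)) hr
        ((Bound.baseChange L).2 (ih le_rfl (fun i j hij hj => hmono i j hij (by omega))
          fun i hi => h2 i (by omega))))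

end Vale.Agent.P200.Betti.Pow
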