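import Vale.Agent.P200.Betti.Free.Base
import Vale.Agent.P200.Betti.Pow.Step
import Vale.Agent.P200.Betti.Pow.BaseChange

/-!
Among monomial ideals containing the powers `x_i ^ a_i` of the first `c` variables, the exponents
weakly increasing, the lex-plus-powers one has the greatest Betti numbers, over every field.
-/

namespace Vale.Agent.P200.Betti

open MvPolynomial Module
open Free (mem_degSets setOf')

/-- The monomial step of the lex-plus-powers theorem, every field and all exponents. -/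
theorem exists_lpp_monomial_powers (K : Type*) [Field K] {n c : ℕ} (hcn : c ≤ n) {a : Fin c → ℕ}
    (hmono : Monotone a) (ha : ∀ i, 2 ≤ a i)
    {T : ℕ → Finset (Fin n →₀ ℕ)} (hdeg : ∀ d, ∀ e ∈ T d, e.degree = d)
    (hpow : ∀ d, ∀ e : Fin n →₀ ℕ, e.degree = d → (∃ i : Fin c, a i ≤ e (Fin.castLE hcn i)) →
      e ∈ T d)
    (hcl : ∀ d, ∀ e ∈ T d, ∀ v, e + Finsupp.single v 1 ∈ T (d + 1)) :
    ∃ T2 : ℕ → Finset (Fin n →₀ ℕ), (∀ d,
      (∀ e ∈ T2 d, e.degree = d) ∧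
      (∀ e : Fin n →₀ ℕ, e.degree = d → (∃ i : Fin c, a i ≤ e (Fin.castLE hcn i)) → e ∈ T2 d) ∧
      (∀ e ∈ T2 d, ∀ e' : Fin n →₀ ℕ, e'.degree = d →
        (∀ i : Fin c, e (Fin.castLE hcn i) < a i) → (∀ i : Fin c, e' (Fin.castLE hcn i) < a i) →
        toLex e < toLex e' → e' ∈ T2 d) ∧
      (T2 d).card = (T d).card ∧
      ∀ e ∈ T2 d, ∀ v : Fin n, e + Finsupp.single v 1 ∈ T2 (d + 1)) ∧
    ∀ p j, betti (setIdeal T K) p j ≤ betti (setIdeal T2 K) p j := by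
  set a' : ℕ → ℕ := fun i => if h : i < c then a ⟨i, h⟩ else 0
  have ha' : ∀ i : Fin c, a' i = a i := fun i => by simp [a', i.2]
  have hm : ∀ i j, i ≤ j → j < c → a' i ≤ a' j := fun i j hij hj => by
    simp only [a', dif_pos hj, dif_pos (show i < c by omega)]
    exact hmono hij
  have h2 : ∀ i, i < c → 2 ≤ a' i := fun i hi => by simp [a', hi, ha]
  have hup : Free.IsUp (setOf' T) := Free.isUp_setOf' T hcl
  have hpow' : Pow.HasPow a' c (setOf' T) := fun i hi b hb =>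
    hpow _ (Free.fn b) (Free.degree_fn b) ⟨⟨i, hi⟩, by simpa [a', hi] using hb⟩
  obtain ⟨L, hL, hnum⟩ := Pow.exists_isPowLPP K hm hup hpow'
  have hcl2 := fun d => Free.degSets_cl (M := L) hL.1 d
  refine ⟨Free.degSets L, fun d => ⟨Free.degSets_deg d, fun e he ⟨i, hi⟩ => ?_,
    fun e he e' he' hr hr' hlt => ?_, ?_, hcl2 d⟩, fun p j => ?_⟩
  · exact mem_degSets.2 ⟨he, hL.2.1 (Fin.castLE hcn i) (by simp) _ (by simpa [ha'] using hi)⟩
  · obtain ⟨h1, h2⟩ := mem_degSets.1 he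
    refine mem_degSets.2 ⟨he', hL.2.2 _ h2 _ ?_
      (fun i hi => by simpa [a', hi] using hr ⟨i, hi⟩)
      (fun i hi => by simpa [a', hi] using hr' ⟨i, hi⟩) ?_⟩
    · rw [← Finsupp.degree_eq_sum, ← Finsupp.degree_eq_sum, he', h1]
    · obtain ⟨i, hi, hlt'⟩ := Finsupp.Lex.lt_iff.1 hlt
      exact Box.toLex_lt_of_first i (fun k hk => hi k hk) hlt'
  · rw [Free.card_degSets, hnum, Free.num_setOf' T hdeg]
  · by_cases hpj : p ≤ j
    swap
    · simp [betti, hpj]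
    obtain ⟨d, rfl⟩ := Nat.exists_eq_add_of_le hpj
    rw [Free.betti_eq_hM hdeg hcl, Free.betti_eq_hM Free.degSets_deg hcl2, Free.setOf'_degSets]
    exact (Pow.bound K hcn hm h2).1 p d _ L hup hpow' hL hnum

/-- The monomial step for one exponent; the hypothesis on `a` is not needed. -/
theorem exists_lpp_monomial_pow (K : Type*) [Field K] {n c a : ℕ} (hcn : c ≤ n) (ha : 2 ≤ a)
    (_hK : a.Prime ∨ (a : K) ≠ 0)
    {T : ℕ → Finset (Fin n →₀ ℕ)} (hdeg : ∀ d, ∀ e ∈ T d, e.degree = d)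
    (hpow : ∀ d, ∀ e : Fin n →₀ ℕ, e.degree = d → (∃ i : Fin c, a ≤ e (Fin.castLE hcn i)) →
      e ∈ T d)
    (hcl : ∀ d, ∀ e ∈ T d, ∀ v, e + Finsupp.single v 1 ∈ T (d + 1)) :
    ∃ T2 : ℕ → Finset (Fin n →₀ ℕ), (∀ d,
      (∀ e ∈ T2 d, e.degree = d) ∧
      (∀ e : Fin n →₀ ℕ, e.degree = d → (∃ i : Fin c, a ≤ e (Fin.castLE hcn i)) → e ∈ T2 d) ∧
      (∀ e ∈ T2 d, ∀ e' : Fin n →₀ ℕ, e'.degree = d →
        (∀ i : Fin c, e (Fin.castLE hcn i) < a) → (∀ i : Fin c, e' (Fin.castLE hcn i) < a) →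
        toLex e < toLex e' → e' ∈ T2 d) ∧
      (T2 d).card = (T d).card ∧
      ∀ e ∈ T2 d, ∀ v : Fin n, e + Finsupp.single v 1 ∈ T2 (d + 1)) ∧
    ∀ p j, betti (setIdeal T K) p j ≤ betti (setIdeal T2 K) p j :=
  exists_lpp_monomial_powers K hcn (a := fun _ => a) monotone_const (fun _ => ha) hdeg hpow hcl

end Vale.Agent.P200.Betti
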