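import Vale.Agent.P200.Betti.Pow.Twist

/-!
The monomials of the lowest parts after a distraction.
-/

namespace Vale.Agent.P200.Betti.Pow

open Finset Module
open Vale.Agent.P200.Betti.Free (Pt dl dd cells mons mem_cells mem_mons sp mem_sp unit'
  unit'_self unit'_of_ne unit'_mem_sp keep keep_apply inCells inCells_subset card_inCells IsUp num sh
  finrank_sp finrank_le_of_lead dd_apply)

variable {n : ℕ} {F : Type*} [Field F]

/-- Containing the powers `a i` of the first `c` variables. -/
def HasPow (a : ℕ → ℕ) (c : ℕ) {m : ℕ} (M : Set (Fin m → ℕ)) : Prop :=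
  ∀ i : Fin m, (i : ℕ) < c → ∀ b : Fin m → ℕ, a i ≤ b i → b ∈ M

open Classical in
/-- A function on monomials put at the positions `T`, twisted by their weight. -/
noncomputable def place (r : Tw F) (x : Fin (n + 1)) (T : Finset (Fin (n + 1)))
    (f : Pt (n + 1) → F) : Pt (n + 1) → F :=
  fun z => if z.1 = T then (r.σ ^ pos x T) (f (∅, z.2)) else 0

variable {r : Tw F} {x : Fin (n + 1)} {M : Set (Fin (n + 1) → ℕ)}

variable (r x M) in
/-- The exponents of the lowest parts of the distracted `M`. -/
def moved : Set (Fin (n + 1) → ℕ) :=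
  {b | ∃ g ∈ sp F (inCells M 0 (∑ i, b i)), spread F r x g (∅, b) ≠ 0 ∧
    ∀ c : Fin (n + 1) → ℕ, c (Fin.last n) < b (Fin.last n) → spread F r x g (∅, c) = 0}

open Classical in
lemma place_apply (T : Finset (Fin (n + 1))) (f : Pt (n + 1) → F) (z : Pt (n + 1)) :
    place r x T f z = if z.1 = T then (r.σ ^ pos x T) (f (∅, z.2)) else 0 := rfl

lemma spread_place (T : Finset (Fin (n + 1))) (f : Pt (n + 1) → F) :
    spread F r x (place r x T f) = place r x T (spread F r x f) := by
  classical
  funext z
  rw [place_apply, spread_apply]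
  split_ifs with h
  · rw [spread_apply, map_sum]
    refine sum_congr rfl fun j _ => ?_
    rw [place_apply, if_pos h, map_mul]
    congr 1
    show coef r (z.2 x - j + pos x z.1) _ j = (r.σ ^ pos x T) (coef r (z.2 x - j + 0) _ j)
    rw [h, add_zero, coef, coef, add_comm (z.2 x - j), pow_add]
    rfl
  · exact sum_eq_zero fun j _ => by rw [place_apply, if_neg h, mul_zero]

lemma place_mem {d : ℕ} {T : Finset (Fin (n + 1))} {f : Pt (n + 1) → F}
    (hf : f ∈ sp F (inCells M 0 d)) : place r x T f ∈ sp F (inCells M T.card d) := by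
  classical
  refine mem_sp.2 fun z hz => ?_
  rw [place_apply]
  split_ifs with h
  · rw [mem_sp.1 hf, map_zero]
    refine fun h' => hz ?_
    obtain ⟨h1, h2⟩ := mem_filter.1 h'
    exact mem_filter.2 ⟨mem_cells.2 ⟨h ▸ rfl, (mem_cells.1 h1).2⟩, h2⟩
  · rfl

variable (hx : x ≠ Fin.last n)

include hx in
lemma sum_back {b : Fin (n + 1) → ℕ} {j : ℕ} (hj : j ≤ b x) :
    ∑ i, back x b j i = ∑ i, b i := by
  have h1 := add_sum_erase univ (back x b j) (mem_univ (Fin.last n))
  have h2 := add_sum_erase univ b (mem_univ (Fin.last n))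
  have hxm : x ∈ univ.erase (Fin.last n) := mem_erase.2 ⟨hx, mem_univ _⟩
  have h3 := add_sum_erase _ (back x b j) hxm
  have h4 := add_sum_erase _ b hxm
  have h5 : ∑ i ∈ (univ.erase (Fin.last n)).erase x, back x b j i =
      ∑ i ∈ (univ.erase (Fin.last n)).erase x, b i := by
    refine sum_congr rfl fun i hi => ?_
    simp only [mem_erase] at hi
    simp [back, hi.1, hi.2.1]
  have e2 : back x b j x = b x - j := by simp [back, hx]
  have e1 := back_last x b j
  omega

include hx in
lemma spread_mem {p d : ℕ} {f : Pt (n + 1) → F} (hf : f ∈ sp F (cells (n + 1) p d)) :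
    spread F r x f ∈ sp F (cells (n + 1) p d) := by
  refine mem_sp.2 fun z hz => ?_
  rw [spread_apply]
  refine sum_eq_zero fun j hj => ?_
  rw [mem_sp.1 hf, mul_zero]
  intro h
  obtain ⟨h1, h2⟩ := mem_cells.1 h
  exact hz (mem_cells.2 ⟨h1, by rw [← h2]; exact (sum_back hx (Nat.lt_succ_iff.1 (mem_range.1 hj))).symm⟩)

/-- Where a function vanishes on all higher last exponents it is not changed. -/
lemma spread_eq_of_high {f : Pt (n + 1) → F} {z : Pt (n + 1)}
    (h : ∀ w : Pt (n + 1), z.2 (Fin.last n) < w.2 (Fin.last n) → f w = 0) :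
    spread F r x f z = f z := by
  rw [spread_apply, sum_eq_single 0]
  · rw [coef_zero_right, one_mul, back_zero]
  · intro j _ hj
    rw [h _ (by simp only [back_last]; omega), mul_zero]
  · exact fun h => absurd (mem_range.2 (Nat.succ_pos _)) h

lemma spread_inj {p d : ℕ} {f : Pt (n + 1) → F} (hf : f ∈ sp F (cells (n + 1) p d))
    (h0 : spread F r x f = 0) : f = 0 := by
  classical
  by_contra hne
  obtain ⟨z₀, hz₀⟩ := Function.ne_iff.1 hne
  have hmem : ∀ z, f z ≠ 0 → z ∈ cells (n + 1) p d := fun z hz =>
    by_contra fun h => hz (mem_sp.1 hf z h)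
  obtain ⟨z, hz, hmax⟩ := exists_max_image ((cells (n + 1) p d).filter fun z => f z ≠ 0)
    (fun z => z.2 (Fin.last n)) ⟨z₀, mem_filter.2 ⟨hmem _ hz₀, hz₀⟩⟩
  refine (mem_filter.1 hz).2 ?_
  rw [← spread_eq_of_high (r := r) (x := x) (f := f) (z := z), h0, Pi.zero_apply]
  intro w hw
  by_contra hw'
  exact absurd (hmax w (mem_filter.2 ⟨hmem _ hw', hw'⟩)) (not_le.2 hw)

/-- The distracted monomials of a degree. -/
lemma finrank_image {p d : ℕ} :
    finrank F ((sp F (inCells M p d)).map (spread F r x)) = (inCells M p d).card := by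
  rw [← LinearMap.range_domRestrict, ← finrank_sp (F := F) (inCells M p d)]
  exact LinearMap.finrank_range_of_inj ((injective_iff_map_eq_zero _).2 fun g hg =>
    Subtype.ext (spread_inj (sp_le g.2) hg))
where
  sp_le {p d : ℕ} {g : Pt (n + 1) → F} (hg : g ∈ sp F (inCells M p d)) :
      g ∈ sp F (cells (n + 1) p d) := Free.sp_mono (inCells_subset _ _ _) hg

include hx in
lemma num_moved (d : ℕ) : num (moved r x M) d = num M d := by
  classical
  set G := (sp F (inCells M 0 d)).map (spread F r x) with hG
  have hGle : G ≤ sp F (cells (n + 1) 0 d) := by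
    rintro _ ⟨f, hf, rfl⟩
    exact spread_mem hx (Free.sp_mono (inCells_subset _ _ _) hf)
  have hdim : finrank F G = num M d := by
    rw [hG, finrank_image, card_inCells, Nat.choose_zero_right, one_mul]
  have hnum : num (moved r x M) d = finrank F (sp F (inCells (moved r x M) 0 d)) := by
    rw [finrank_sp, card_inCells, Nat.choose_zero_right, one_mul]
  have hGfin : FiniteDimensional F G := Submodule.finiteDimensional_of_le hGle
  rw [hnum, ← hdim]
  refine le_antisymm (finrank_le_of_lead hGle (fun z => z.2 (Fin.last n)) _ ?_) ?_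
  · rintro _ ⟨⟨⟨T, b⟩, hz⟩, rfl⟩
    obtain ⟨hc, g, hg, hne, hlow⟩ := mem_filter.1 hz
    obtain ⟨hT, hb⟩ := mem_cells.1 hc
    obtain rfl : T = ∅ := card_eq_zero.1 hT
    simp only at hb hg
    rw [hb] at hg
    -- the fibre through the monomial
    set Z : Pt (n + 1) → Prop := fun w => ∀ i, i ≠ x → i ≠ Fin.last n → w.2 i = b i
    have hcomm : spread F r x (keep F Z g) = keep F Z (spread F r x g) := by
      funext w
      rw [keep_apply, spread_apply, spread_apply]
      have hZ : ∀ j, Z (w.1, back x w.2 j) ↔ Z w := fun j =>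
        forall_congr' fun i => imp_congr_right fun h1 => imp_congr_right fun h2 => by
          simp [back, h1, h2]
      split_ifs with h
      · exact sum_congr rfl fun j _ => by rw [keep_apply, if_pos ((hZ j).2 h)]
      · exact sum_eq_zero fun j _ => by rw [keep_apply, if_neg (h ∘ (hZ j).1), mul_zero]
    have hkg : keep F Z g ∈ sp F (inCells M 0 d) := mem_sp.2 fun w hw => by
      rw [keep_apply, mem_sp.1 hg w hw, ite_self]
    set s := spread F r x g (∅, b)
    refine ⟨spread F r x (s⁻¹ • keep F Z g), ⟨_, Submodule.smul_mem _ _ hkg, rfl⟩,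
      b (Fin.last n), fun w hw => ?_, ?_⟩
    · rw [map_smul, Pi.smul_apply, hcomm, keep_apply, smul_eq_mul]
      split_ifs with h
      · by_cases hwc : w ∈ cells (n + 1) 0 d
        · rw [show w = (∅, w.2) from Prod.ext (card_eq_zero.1 (mem_cells.1 hwc).1) rfl,
            hlow _ hw, mul_zero]
        · rw [mem_sp.1 (hGle ⟨g, hg, rfl⟩) w hwc, mul_zero]
      · rw [mul_zero]
    · funext w
      rw [keep_apply, map_smul, Pi.smul_apply, hcomm, keep_apply, smul_eq_mul]
      by_cases hwz : w = (∅, b)
      · subst hwz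
        rw [if_pos rfl, if_pos (show Z (∅, b) from fun i _ _ => rfl), inv_mul_cancel₀ hne]
        exact (unit'_self _).symm
      · show _ = unit' F (∅, b) w
        rw [unit'_of_ne hwz]
        by_cases h1 : w.2 (Fin.last n) = b (Fin.last n)
        swap
        · rw [if_neg h1]
        rw [if_pos h1]
        by_cases h2 : Z w
        swap
        · rw [if_neg h2, mul_zero]
        rw [if_pos h2]
        by_cases hwc : w ∈ cells (n + 1) 0 d
        · exfalso
          obtain ⟨hw1, hw2⟩ := mem_cells.1 hwc
          refine hwz (Prod.ext (card_eq_zero.1 hw1) (funext fun i => ?_))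
          by_cases hi : i = Fin.last n
          · exact hi ▸ h1
          by_cases hix : i = x
          swap
          · exact h2 i hix hi
          subst hix
          have hs : ∑ l ∈ univ.erase i, w.2 l = ∑ l ∈ univ.erase i, b l := by
            refine sum_congr rfl fun l hl => ?_
            by_cases hl' : l = Fin.last n
            · exact hl' ▸ h1
            · exact h2 l (ne_of_mem_erase hl) hl'
          have e1 := add_sum_erase univ w.2 (mem_univ i)
          have e2 := add_sum_erase univ b (mem_univ i)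
          show w.2 i = b i
          omega
        · rw [mem_sp.1 (hGle ⟨g, hg, rfl⟩) w hwc, mul_zero]
  · -- a member vanishing at all lowest monomials vanishes
    set Z : Pt (n + 1) → Prop := fun w => w ∈ inCells (moved r x M) 0 d
    have hinj : ∀ h ∈ G, keep F Z h = 0 → h = 0 := by
      intro h hh hk
      by_contra hne
      obtain ⟨z₀, hz₀⟩ := Function.ne_iff.1 hne
      have hmem : ∀ z, h z ≠ 0 → z ∈ cells (n + 1) 0 d := fun z hz =>
        by_contra fun h' => hz (mem_sp.1 (hGle hh) z h')
      obtain ⟨z, hz, hmin⟩ := exists_min_image ((cells (n + 1) 0 d).filter fun z => h z ≠ 0)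
        (fun z => z.2 (Fin.last n)) ⟨z₀, mem_filter.2 ⟨hmem _ hz₀, hz₀⟩⟩
      obtain ⟨hzc, hzne⟩ := mem_filter.1 hz
      obtain ⟨g, hg, rfl⟩ := hh
      obtain ⟨hT, hb⟩ := mem_cells.1 hzc
      have hze : z = (∅, z.2) := Prod.ext (card_eq_zero.1 hT) rfl
      have hzmem : Z z := mem_filter.2 ⟨hzc, g, hb.symm ▸ hg, hze ▸ hzne, fun c hc => by
        by_contra hc'
        exact absurd (hmin (∅, c) (mem_filter.2 ⟨hmem _ hc', hc'⟩)) (not_le.2 hc)⟩
      have := congrFun hk z
      rw [keep_apply, if_pos hzmem] at this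
      exact hzne this
    calc finrank F G = finrank F (G.map (keep F Z)) := by
          rw [← LinearMap.range_domRestrict]
          exact (LinearMap.finrank_range_of_inj ((injective_iff_map_eq_zero _).2 fun g hg =>
            Subtype.ext (hinj g g.2 hg))).symm
      _ ≤ _ := Submodule.finrank_mono (by
          rintro _ ⟨f, -, rfl⟩
          exact mem_sp.2 fun z hz => by rw [keep_apply, if_neg hz])

include hx in
lemma isUp_moved (hM : IsUp M) : IsUp (moved r x M) := by
  classical
  rintro b ⟨g, hg, hne, hlow⟩ k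
  set d := ∑ i, b i
  set f := dd F (place r x {k} g) - cross F r x (place r x {k} g) with hf
  have hspread : spread F r x f = dd F (place r x {k} (spread F r x g)) := by
    rw [hf, ← dd_spread hx, spread_place]
  have hval : ∀ c, spread F r x f (∅, c) =
      if 1 ≤ c k then (r.σ ^ pos x {k}) (spread F r x g (∅, c - dl k)) else 0 := by
    intro c
    rw [hspread, dd_apply, sum_eq_single k]
    · simp [place_apply, Free.sg]
    · intro l _ hl
      split_ifs
      · rw [place_apply, if_neg, mul_zero]
        simpa using hl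
      · rfl
    · simp
  have hd1 : ∑ i, (b + dl k) i = d + 1 := by
    simp [d, Pi.add_apply, sum_add_distrib, Free.sum_dl]
  have hgM : ∀ T c, place r x {k} g (T, c) ≠ 0 → T = {k} ∧ c ∈ M ∧ ∑ i, c i = d := by
    intro T c h
    rw [place_apply] at h
    obtain ⟨h1, h2'⟩ := ite_ne_right_iff.1 h
    have h2 := (r.σ ^ pos x {k}).map_ne_zero_iff.1 h2'
    have := by_contra fun hn => h2 (mem_sp.1 hg (∅, c) hn)
    obtain ⟨h3, h4⟩ := mem_filter.1 this
    exact ⟨h1, h4, (mem_cells.1 h3).2⟩
  refine ⟨f, mem_sp.2 fun z hz => ?_, ?_, fun c hc => ?_⟩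
  · have key : ∀ l c, 1 ≤ c l → z.2 = c → c - dl l ∈ M → ∑ i, (c - dl l) i = d →
        z.1.card = 0 → False := by
      intro l c hl hzc hm hs hcard
      refine hz (mem_filter.2 ⟨mem_cells.2 ⟨hcard, ?_⟩, ?_⟩)
      · rw [hd1, hzc, ← Free.sum_sub_dl hl, hs]
      · rw [hzc, ← Free.sub_add_dl hl]
        exact hM _ hm l
    rw [hf, Pi.sub_apply, dd_apply, cross_apply, sum_eq_zero, zero_sub, neg_eq_zero]
    · split_ifs with h
      · by_contra hne'
        obtain ⟨h1, h2, h3⟩ := hgM _ _ (right_ne_zero_of_mul hne')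
        have hsub : z.1 ⊆ ({k} : Finset (Fin (n + 1))) := h1 ▸ subset_insert _ _
        rcases subset_singleton_iff.1 hsub with e | e
        · exact key x z.2 h.2 rfl h2 h3 (by simp [e])
        · have hk : Fin.last n ∈ ({k} : Finset (Fin (n + 1))) := h1 ▸ mem_insert_self _ _
          exact h.1 (e ▸ hk)
      · rfl
    · intro l hl
      split_ifs with h
      · by_contra hne'
        obtain ⟨h1, h2, h3⟩ := hgM _ _ (right_ne_zero_of_mul hne')
        refine key l z.2 h rfl h2 h3 ?_
        have hc := congrArg Finset.card h1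
        rw [card_insert_of_notMem (mem_compl.1 hl), card_singleton] at hc
        omega
      · rfl
  · rw [hval, if_pos (by simp [dl]), Free.add_sub_dl, (r.σ ^ pos x {k}).map_ne_zero_iff]
    exact hne
  · rw [hval]
    split_ifs with h
    · rw [hlow, map_zero]
      by_cases hk : k = Fin.last n
      · subst hk
        simp [dl] at hc ⊢
        omega
      · simp [dl, Ne.symm hk] at hc ⊢
        exact hc
    · rfl

include hx in
/-- A set closed under the moves that occur has its units among the distracted functions. -/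
lemma unit_mem_image {S : Set (Fin (n + 1) → ℕ)} (hSM : S ⊆ M)
    (hS : ∀ b ∈ S, ∀ j, 1 ≤ j → j ≤ b (Fin.last n) → cf r (b (Fin.last n)) j ≠ 0 → sh x b j ∈ S)
    {p d : ℕ} {z : Pt (n + 1)} (hz : z ∈ cells (n + 1) p d) (hzS : z.2 ∈ S) :
    unit' F z ∈ (sp F (inCells M p d)).map (spread F r x) := by
  classical
  induction hm : z.2 (Fin.last n) using Nat.strong_induction_on generalizing z with
  | _ m ih =>
    subst hm
    have hrest : spread F r x (unit' F z) - unit' F z ∈
        sp F ((cells (n + 1) p d).filter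
          fun w => w.2 (Fin.last n) < z.2 (Fin.last n) ∧ w.2 ∈ S) := by
      refine mem_sp.2 fun w hw => ?_
      by_contra hne
      have hwc : w ∈ cells (n + 1) p d := by
        by_contra h
        refine hne ?_
        rw [Pi.sub_apply, mem_sp.1 (spread_mem hx (unit'_mem_sp hz)) w h,
          mem_sp.1 (unit'_mem_sp (F := F) hz) w h, sub_zero]
      apply hne
      rw [Pi.sub_apply, spread_apply, sum_range_succ', coef_zero_right, one_mul, back_zero,
        add_sub_assoc, show unit' F z (w.1, w.2) = unit' F z w from rfl, sub_self, add_zero]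
      refine sum_eq_zero fun j hj => ?_
      by_contra hj'
      have he : (w.1, back x w.2 (j + 1)) = z :=
        by_contra fun h => hj' (by rw [unit'_of_ne h, mul_zero])
      have hzy : z.2 (Fin.last n) = w.2 (Fin.last n) + (j + 1) := by
        rw [← he]; exact back_last x _ _
      refine hw (mem_filter.2 ⟨hwc, by omega, ?_⟩)
      have hsh : sh x z.2 (j + 1) = w.2 := by
        rw [← he]
        funext i
        have := mem_range.1 hj
        by_cases h1 : i = Fin.last n
        · simp [sh, back, h1]
        by_cases h2 : i = x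
        · subst h2; simp [sh, back, h1]; omega
        · simp [sh, back, h1, h2]
      rw [← hsh]
      refine hS _ hzS _ (by omega) (by omega) ?_
      rw [hzy]
      exact coef_ne_zero.1 (left_ne_zero_of_mul hj')
    have h1 : spread F r x (unit' F z) ∈ (sp F (inCells M p d)).map (spread F r x) :=
      ⟨_, unit'_mem_sp (mem_filter.2 ⟨hz, hSM hzS⟩), rfl⟩
    have h2 : spread F r x (unit' F z) - unit' F z ∈
        (sp F (inCells M p d)).map (spread F r x) := by
      refine (Submodule.span_le.2 ?_) hrest
      rintro _ ⟨⟨w, hw⟩, rfl⟩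
      obtain ⟨hw1, hw2, hw3⟩ := mem_filter.1 hw
      exact ih _ hw2 hw1 hw3 rfl
    simpa using Submodule.sub_mem _ h1 h2

include hx in
lemma mem_moved_of_closed {S : Set (Fin (n + 1) → ℕ)} (hSM : S ⊆ M)
    (hS : ∀ b ∈ S, ∀ j, 1 ≤ j → j ≤ b (Fin.last n) → cf r (b (Fin.last n)) j ≠ 0 → sh x b j ∈ S)
    {b : Fin (n + 1) → ℕ} (hb : b ∈ S) : b ∈ moved r x M := by
  obtain ⟨g, hg, he⟩ := unit_mem_image (F := F) (p := 0) (d := ∑ i, b i) (z := (∅, b)) hx hSM hS
    (mem_cells.2 ⟨rfl, rfl⟩) hb
  refine ⟨g, hg, ?_, fun c hc => ?_⟩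
  · rw [he, unit'_self]
    exact one_ne_zero
  · rw [he, unit'_of_ne]
    intro e
    rw [show c = b from (Prod.ext_iff.1 e).2] at hc
    exact lt_irrefl _ hc

include hx in
lemma hasPow_moved {a : ℕ → ℕ} {c : ℕ} (hM : HasPow a c M)
    (hc : c ≤ n ∨ Fits r (a n) ∧ (x : ℕ) < c ∧ a x ≤ a n) :
    HasPow a c (moved r x M) := by
  intro i hi b hb
  by_cases hiy : i = Fin.last n
  · subst hiy
    obtain ⟨hr, hxc, hax⟩ := hc.resolve_left fun h => by rw [Fin.val_last] at hi; omega
    rw [Fin.val_last] at hb
    refine mem_moved_of_closed hx (S := {b | a n ≤ b (Fin.last n) ∨ a x ≤ b x}) ?_ ?_ (Or.inl hb)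
    · rintro b (h | h)
      · exact hM _ hi b (by rwa [Fin.val_last])
      · exact hM _ hxc b h
    · rintro b h j hj1 hj2 hj3
      rcases Nat.lt_or_ge j (a n) with hja | hja
      · rcases h with h | h
        · left
          show a n ≤ sh x b j (Fin.last n)
          rw [hr.cf_shift h hja] at hj3
          have : j ≤ b (Fin.last n) - a n := not_lt.1 fun hlt => hj3 (cf_eq_zero r hlt)
          simp [sh]
          omega
        · exact Or.inr (by simp [sh, hx]; omega)
      · exact Or.inr (by simp [sh, hx]; omega)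
  · refine mem_moved_of_closed hx (S := {b | a i ≤ b i}) (fun b h => hM i hi b h) ?_ hb
    intro b (h : a i ≤ b i) j _ _ _
    show a i ≤ sh x b j i
    simp only [sh, if_neg hiy]
    split_ifs <;> omega

end Vale.Agent.P200.Betti.Pow
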