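import Vale.Agent.P200.Betti.Free.MoveRank
import Vale.Agent.P200.Betti.Pow.Coef

/-!
The distraction in the last variable as an isomorphism of the complex of cells.
-/

namespace Vale.Agent.P200.Betti.Pow

open Finset Module
open Vale.Agent.P200.Betti.Free (Pt dl sg dd dd_apply sg_last sg_self_erase cast_sg_sq)

variable {n : ℕ} {F : Type*} [Field F]

/-- Undoing `j` moves from the last variable to `x`. -/
def back (x : Fin (n + 1)) (b : Fin (n + 1) → ℕ) (j : ℕ) : Fin (n + 1) → ℕ := fun i =>
  if i = Fin.last n then b i + j else if i = x then b i - j else b i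

lemma back_zero (x : Fin (n + 1)) (b : Fin (n + 1) → ℕ) : back x b 0 = b := by
  funext i; unfold back; split_ifs <;> simp

/-- Whether `x` is among the positions. -/
def pos {m : ℕ} (x : Fin m) (T : Finset (Fin m)) : ℕ := if x ∈ T then 1 else 0

lemma pos_insert_of_ne {m : ℕ} {x k : Fin m} (h : x ≠ k) (T : Finset (Fin m)) :
    pos x (insert k T) = pos x T := by
  simp [pos, h]

lemma back_last (x : Fin (n + 1)) (b : Fin (n + 1) → ℕ) (j : ℕ) :
    back x b j (Fin.last n) = b (Fin.last n) + j := by simp [back]

variable (F)

/-- The distraction on the exponents. -/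
noncomputable def spread (r : Tw F) (x : Fin (n + 1)) :
    (Pt (n + 1) → F) →ₗ[F] (Pt (n + 1) → F) where
  toFun f := fun z => ∑ j ∈ range (z.2 x + 1),
    coef r (z.2 x - j + pos x z.1) (z.2 (Fin.last n) + j) j * f (z.1, back x z.2 j)
  map_add' f g := by
    funext z
    simp only [Pi.add_apply, mul_add, sum_add_distrib]
  map_smul' c f := by
    funext z
    simp only [Pi.smul_apply, smul_eq_mul, RingHom.id_apply, mul_sum]
    exact sum_congr rfl fun j _ => mul_left_comm _ _ _

/-- The correction on the positions. -/
noncomputable def fix' (r : Tw F) (x : Fin (n + 1)) :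
    (Pt (n + 1) → F) →ₗ[F] (Pt (n + 1) → F) where
  toFun f := fun z => if x ∈ z.1 ∧ Fin.last n ∉ z.1 then
    wgt r (z.2 x) (z.2 (Fin.last n)) * ((sg x z.1 : F) * f (insert (Fin.last n) (z.1.erase x), z.2)) else 0
  map_add' f g := by
    funext z
    simp only [Pi.add_apply]
    split_ifs <;> ring
  map_smul' c f := by
    funext z
    simp only [Pi.smul_apply, smul_eq_mul, RingHom.id_apply]
    split_ifs <;> ring

/-- The term exchanged between the two. -/
noncomputable def cross (r : Tw F) (x : Fin (n + 1)) :
    (Pt (n + 1) → F) →ₗ[F] (Pt (n + 1) → F) where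
  toFun f := fun z => if Fin.last n ∉ z.1 ∧ 1 ≤ z.2 x then
    wgt r (z.2 x - 1 + pos x z.1) (z.2 (Fin.last n)) * f (insert (Fin.last n) z.1, z.2 - dl x) else 0
  map_add' f g := by
    funext z
    simp only [Pi.add_apply]
    split_ifs <;> ring
  map_smul' c f := by
    funext z
    simp only [Pi.smul_apply, smul_eq_mul, RingHom.id_apply]
    split_ifs <;> ring

/-- The distraction as a map of the complex. -/
noncomputable def phi (r : Tw F) (x : Fin (n + 1)) :
    (Pt (n + 1) → F) →ₗ[F] (Pt (n + 1) → F) :=
  spread F r x ∘ₗ (LinearMap.id + fix' F r x)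

variable {F} {r : Tw F} {x : Fin (n + 1)}

lemma spread_apply (f : Pt (n + 1) → F) (z : Pt (n + 1)) :
    spread F r x f z = ∑ j ∈ range (z.2 x + 1),
      coef r (z.2 x - j + pos x z.1) (z.2 (Fin.last n) + j) j * f (z.1, back x z.2 j) := rfl

lemma fix'_apply (f : Pt (n + 1) → F) (z : Pt (n + 1)) :
    fix' F r x f z = if x ∈ z.1 ∧ Fin.last n ∉ z.1 then
      wgt r (z.2 x) (z.2 (Fin.last n)) * ((sg x z.1 : F) * f (insert (Fin.last n) (z.1.erase x), z.2))
    else 0 := rfl

lemma cross_apply (f : Pt (n + 1) → F) (z : Pt (n + 1)) :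
    cross F r x f z = if Fin.last n ∉ z.1 ∧ 1 ≤ z.2 x then
      wgt r (z.2 x - 1 + pos x z.1) (z.2 (Fin.last n)) * f (insert (Fin.last n) z.1, z.2 - dl x) else 0 := rfl

variable (hx : x ≠ Fin.last n)

include hx in
theorem dd_spread (f : Pt (n + 1) → F) :
    dd F (spread F r x f) = spread F r x (dd F f - cross F r x f) := by
  classical
  funext z
  obtain ⟨T, b⟩ := z
  set y := Fin.last n with hy
  have hR : spread F r x (dd F f - cross F r x f) (T, b) =
      (∑ k ∈ Tᶜ, ∑ j ∈ range (b x + 1), coef r (b x - j + pos x T) (b y + j) j *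
        (if 1 ≤ back x b j k then (sg k T : F) * f (insert k T, back x b j - dl k) else 0)) -
      ∑ j ∈ range (b x + 1), coef r (b x - j + pos x T) (b y + j) j *
        (if y ∉ T ∧ 1 ≤ back x b j x then
          wgt r (back x b j x - 1 + pos x T) (back x b j y) * f (insert y T, back x b j - dl x) else 0) := by
    rw [spread_apply, sum_comm, ← sum_sub_distrib]
    refine sum_congr rfl fun j _ => ?_
    rw [Pi.sub_apply, mul_sub, cross_apply, dd_apply, mul_sum]
  rw [hR, dd_apply]
  simp only [spread_apply]
  have hne : ∀ k ∈ Tᶜ, k ≠ y →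
      (if 1 ≤ b k then (sg k T : F) * ∑ j ∈ range ((b - dl k) x + 1),
        coef r ((b - dl k) x - j + pos x (insert k T)) ((b - dl k) y + j) j * f (insert k T, back x (b - dl k) j) else 0) =
      ∑ j ∈ range (b x + 1), coef r (b x - j + pos x T) (b y + j) j *
        (if 1 ≤ back x b j k then (sg k T : F) * f (insert k T, back x b j - dl k) else 0) := by
    intro k hk hky
    have hky' : k ≠ Fin.last n := fun e => hky (e.trans hy.symm)
    have hyk : (b - dl k) y = b y := by simp [dl, hky.symm]
    rcases eq_or_ne k x with rfl | hkx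
    · by_cases hb : 1 ≤ b k
      swap
      · rw [if_neg hb]
        refine (sum_eq_zero fun j _ => ?_).symm
        rw [if_neg (by simp [back, hky']; omega), mul_zero]
      rw [if_pos hb, sum_range_succ _ (b k), mul_sum]
      rw [show (if 1 ≤ back k b (b k) k then (sg k T : F) *
        f (insert k T, back k b (b k) - dl k) else 0) = 0 from if_neg (by simp [back, hky']),
        mul_zero, add_zero, show (b - dl k) k + 1 = b k by simp [dl]; omega]
      refine sum_congr rfl fun j hj => ?_
      have hj' := mem_range.1 hj
      have hkT : k ∉ T := mem_compl.1 hk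
      rw [if_pos (by simp [back, hky']; omega), hyk,
        show (b - dl k) k - j + pos k (insert k T) = b k - j + pos k T by
          simp [pos, hkT, dl]; omega,
        show back k (b - dl k) j = back k b j - dl k by
          funext i
          rcases eq_or_ne i k with rfl | hik
          · simp [back, dl, hky']; omega
          · simp [back, dl, hik]]
      ring
    · have hxk : (b - dl k) x = b x := by simp [dl, Ne.symm hkx]
      by_cases hb : 1 ≤ b k
      swap
      · rw [if_neg hb]
        refine (sum_eq_zero fun j _ => ?_).symm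
        rw [if_neg (by simp [back, hky', hkx]; omega), mul_zero]
      rw [if_pos hb, mul_sum, hxk]
      refine sum_congr rfl fun j _ => ?_
      rw [if_pos (by simp [back, hky', hkx]; omega), hyk, pos_insert_of_ne (Ne.symm hkx),
        show back x (b - dl k) j = back x b j - dl k by
          funext i
          rcases eq_or_ne i k with rfl | hik
          · simp [back, dl, hky', hkx]
          · simp [back, dl, hik]]
      ring
  by_cases hyT : y ∈ T
  · rw [sum_congr rfl fun k hk => hne k hk fun e => mem_compl.1 hk (e ▸ hyT)]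
    rw [show (∑ j ∈ range (b x + 1), coef r (b x - j + pos x T) (b y + j) j * (if y ∉ T ∧ 1 ≤ back x b j x then
        wgt r (back x b j x - 1 + pos x T) (back x b j y) * f (insert y T, back x b j - dl x) else 0)) = 0 from
      sum_eq_zero fun j _ => by rw [if_neg fun h => h.1 hyT, mul_zero], sub_zero]
  have hym : y ∈ Tᶜ := mem_compl.2 hyT
  have hx' : x ≠ Fin.last n := fun e => hx (e.trans hy.symm)
  rw [← add_sum_erase _ _ hym, ← add_sum_erase _ _ hym,
    sum_congr rfl fun k hk => hne k (mem_of_mem_erase hk) (ne_of_mem_erase hk)]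
  suffices h : (if 1 ≤ b y then (sg y T : F) * ∑ j ∈ range ((b - dl y) x + 1),
      coef r ((b - dl y) x - j + pos x (insert y T)) ((b - dl y) y + j) j * f (insert y T, back x (b - dl y) j) else 0) =
      (∑ j ∈ range (b x + 1), coef r (b x - j + pos x T) (b y + j) j *
        (if 1 ≤ back x b j y then (sg y T : F) * f (insert y T, back x b j - dl y) else 0)) -
      ∑ j ∈ range (b x + 1), coef r (b x - j + pos x T) (b y + j) j *
        (if y ∉ T ∧ 1 ≤ back x b j x then
          wgt r (back x b j x - 1 + pos x T) (back x b j y) * f (insert y T, back x b j - dl x) else 0) by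
    rw [h]; ring
  rw [show sg y T = 1 from sg_last T]
  simp only [Int.cast_one, one_mul]
  set h : ℕ → F := fun j => f (insert y T, back x b j - dl y) with hh
  have hyy : ∀ j, back x b j y = b y + j := back_last x b
  -- the second sum, shifted
  have e2 : (∑ j ∈ range (b x + 1), coef r (b x - j + pos x T) (b y + j) j * (if y ∉ T ∧ 1 ≤ back x b j x then
      wgt r (back x b j x - 1 + pos x T) (back x b j y) * f (insert y T, back x b j - dl x) else 0)) =
      ∑ j ∈ range (b x), coef r (b x - j + pos x T) (b y + j) j * wgt r (b x - (j + 1) + pos x T) (b y + j) * h (j + 1) := by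
    rw [sum_range_succ, show (if y ∉ T ∧ 1 ≤ back x b (b x) x then
        wgt r (back x b (b x) x - 1 + pos x T) (back x b (b x) y) * f (insert y T, back x b (b x) - dl x) else 0) = 0 from
      if_neg (fun h => by simp [back, hx'] at h), mul_zero, add_zero]
    refine sum_congr rfl fun j hj => ?_
    have hj' := mem_range.1 hj
    rw [if_pos ⟨hyT, by simp [back, hx']; omega⟩, hyy, hh,
      show back x b j x - 1 + pos x T = b x - (j + 1) + pos x T by simp [back, hx']; omega]
    dsimp only
    rw [show back x b j - dl x = back x b (j + 1) - dl y by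
      funext i
      rcases eq_or_ne i y with rfl | hiy
      · simp [back, dl, hy, hx'.symm]
      rcases eq_or_ne i x with rfl | hix
      · simp [back, dl, hx', Pi.single_eq_of_ne hiy]; omega
      · simp [back, dl, hiy, hy ▸ hiy, hix]]
    ring
  have e1 : (∑ j ∈ range (b x + 1), coef r (b x - j + pos x T) (b y + j) j *
      (if 1 ≤ back x b j y then f (insert y T, back x b j - dl y) else 0)) =
      (if 1 ≤ b y then h 0 else 0) + ∑ j ∈ range (b x), coef r (b x - (j + 1) + pos x T) (b y + (j + 1)) (j + 1) * h (j + 1) := by
    rw [sum_range_succ', coef_zero_right, one_mul, add_comm]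
    congr 1
    · rw [hyy, Nat.add_zero]
    · exact sum_congr rfl fun j _ => by rw [if_pos (by rw [hyy]; omega)]
  have e3 : ∑ j ∈ range ((b - dl y) x + 1),
      coef r ((b - dl y) x - j + pos x (insert y T)) ((b - dl y) y + j) j * f (insert y T, back x (b - dl y) j) =
      ∑ j ∈ range (b x + 1), coef r (b x - j + pos x T) (b y - 1 + j) j * (if 1 ≤ b y then h j else
        f (insert y T, back x (b - dl y) j)) := by
    rw [show (b - dl y) x = b x by simp [dl, hx], pos_insert_of_ne hx]
    refine sum_congr rfl fun j _ => ?_
    rw [show (b - dl y) y = b y - 1 by simp [dl]]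
    split_ifs with hb
    · rw [hh]
      dsimp only
      congr 2
      refine Prod.ext rfl ?_
      funext i
      rcases eq_or_ne i y with rfl | hiy
      · simp [back, dl, hy]; rw [hy] at hb; omega
      · simp [back, dl, hiy, hy ▸ hiy]
    · rfl
  rw [e2, e3, e1]
  have hrec : ∀ j, j < b x → coef r (b x - (j + 1) + pos x T) (b y + (j + 1)) (j + 1) =
      coef r (b x - (j + 1) + pos x T) (b y + j) (j + 1) +
        wgt r (b x - (j + 1) + pos x T) (b y + j) * coef r (b x - j + pos x T) (b y + j) j :=
    fun j hj => by
    rw [← add_assoc, coef_succ_succ,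
      show b x - (j + 1) + pos x T + 1 = b x - j + pos x T by omega]
  by_cases hb : 1 ≤ b y
  · simp only [if_pos hb]
    rw [sum_range_succ', coef_zero_right, one_mul, add_sub_assoc, ← sum_sub_distrib, add_comm]
    congr 1
    refine sum_congr rfl fun j hj => ?_
    rw [hrec j (mem_range.1 hj), show b y - 1 + (j + 1) = b y + j by omega]
    ring
  · rw [if_neg hb, if_neg hb, zero_add, ← sum_sub_distrib]
    refine (sum_eq_zero fun j hj => ?_).symm
    rw [hrec j (mem_range.1 hj), coef_eq_zero r _ (t := b y + j) (j := j + 1) (by omega)]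
    ring

include hx in
theorem dd_fix (f : Pt (n + 1) → F) :
    dd F (fix' F r x f) = fix' F r x (dd F f) + cross F r x f := by
  classical
  funext z
  obtain ⟨T, b⟩ := z
  rw [Pi.add_apply, dd_apply, fix'_apply, cross_apply, dd_apply]
  simp only [fix'_apply]
  set y := Fin.last n with hy
  by_cases hyT : y ∈ T
  · rw [if_neg fun h => h.2 hyT, if_neg fun h => h.1 hyT, add_zero]
    refine sum_eq_zero fun k _ => ?_
    split_ifs with h h'
    · exact absurd (mem_insert_of_mem hyT) h'.2
    · exact mul_zero _
    · rfl
  by_cases hxT : x ∈ T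
  · rw [if_pos ⟨hxT, hyT⟩]
    have hset : (insert y (T.erase x))ᶜ = insert x ((Tᶜ).erase y) := by
      ext k
      simp only [mem_compl, mem_insert, mem_erase]
      by_cases k = x <;> by_cases k = y <;> simp_all
    have hxn : x ∉ (Tᶜ).erase y := by simp [hxT]
    rw [hset, sum_insert hxn, ← add_sum_erase _ _ (mem_compl.2 hyT : y ∈ Tᶜ), mul_add, mul_add,
      mul_sum, mul_sum]
    have hxsg : sg x (insert y (T.erase x)) = -sg x T := by
      unfold sg
      have hm : y ∉ (T.erase x).filter (x < ·) := fun h =>
        hyT (mem_of_mem_erase (mem_filter.1 h).1)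
      rw [filter_insert, if_pos (lt_of_le_of_ne (Fin.le_last x) hx), card_insert_of_notMem hm,
        filter_erase, erase_eq_of_notMem fun h => lt_irrefl x (mem_filter.1 h).2, pow_succ]
      ring
    have hins : insert x (insert y (T.erase x)) = insert y T := by
      rw [Finset.insert_comm, insert_erase hxT]
    have hrest : ∀ k ∈ (Tᶜ).erase y, (if 1 ≤ b k then (sg k T : F) *
        (if x ∈ insert k T ∧ y ∉ insert k T then wgt r ((b - dl k) x) ((b - dl k) y) * ((sg x (insert k T) : F) *
          f (insert y ((insert k T).erase x), b - dl k)) else 0) else 0) =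
        wgt r (b x) (b y) * ((sg x T : F) * if 1 ≤ b k then (sg k (insert y (T.erase x)) : F) *
          f (insert k (insert y (T.erase x)), b - dl k) else 0) := by
      intro k hk
      obtain ⟨hky, hkT⟩ := mem_erase.1 hk
      rw [mem_compl] at hkT
      have hkx : k ≠ x := fun e => hkT (e ▸ hxT)
      split_ifs with h h'
      · have hs := congrArg (fun t : ℤ => (t : F)) (Free.sg_rot hkx hky hkT hxT hyT)
        simp only [Int.cast_mul] at hs
        rw [erase_insert_of_ne hkx, Finset.insert_comm k y,
          show (b - dl k) y = b y by simp [dl, hky.symm],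
          show (b - dl k) x = b x by simp [dl, hkx.symm]]
        linear_combination (wgt r (b x) (b y) * f (insert y (insert k (T.erase x)), b - dl k)) * hs
      · exact absurd ⟨mem_insert_of_mem hxT, by simp [hyT, Ne.symm hky]⟩ h'
      · rw [mul_zero, mul_zero]
    have hzero : (if 1 ≤ b y then (sg y T : F) *
        (if x ∈ insert y T ∧ y ∉ insert y T then wgt r ((b - dl y) x) ((b - dl y) y) * ((sg x (insert y T) : F) *
          f (insert y ((insert y T).erase x), b - dl y)) else 0) else 0) = 0 := by
      rw [if_neg (fun h : x ∈ insert y T ∧ y ∉ insert y T => h.2 (mem_insert_self _ _)), mul_zero,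
        ite_self]
    rw [sum_congr rfl hrest, hins, hxsg, hzero, zero_add]
    by_cases hbx : 1 ≤ b x
    · rw [if_pos hbx, if_pos ⟨hyT, hbx⟩,
        show b x - 1 + pos x T = b x by simp [pos, hxT]; omega]
      push_cast
      linear_combination (wgt r (b x) (b y) * f (insert y T, b - dl x)) * (cast_sg_sq (F := F) x T)
    · rw [if_neg hbx, if_neg fun h => hbx h.2]
      ring
  · rw [if_neg fun h => hxT h.1, zero_add, sum_eq_single x]
    · by_cases hbx : 1 ≤ b x
      · rw [if_pos hbx, if_pos (show x ∈ insert x T ∧ y ∉ insert x T from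
          ⟨mem_insert_self _ _, by simp [hyT, hx.symm]⟩), if_pos ⟨hyT, hbx⟩, erase_insert hxT,
          show (b - dl x) y = b y by simp [dl, hx.symm],
          show (b - dl x) x = b x - 1 + pos x T by simp [pos, hxT, dl], ← sg_self_erase x (insert x T),
          erase_insert hxT]
        linear_combination (wgt r (b x - 1 + pos x T) (b y) * f (insert y T, b - dl x)) * (cast_sg_sq (F := F) x T)
      · rw [if_neg hbx, if_neg fun h => hbx h.2]
    · intro k _ hkx
      split_ifs with h h'
      · exact absurd ((mem_insert.1 h'.1).resolve_left (Ne.symm hkx)) hxT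
      · rw [mul_zero]
      · rfl
    · exact fun h => absurd (mem_compl.2 hxT) h

lemma cross_fix (f : Pt (n + 1) → F) : cross F r x (fix' F r x f) = 0 := by
  funext z
  rw [cross_apply, Pi.zero_apply]
  split_ifs
  · rw [fix'_apply, if_neg fun h => h.2 (mem_insert_self _ _), mul_zero]
  · rfl

include hx in
lemma dd_phi (f : Pt (n + 1) → F) : dd F (phi F r x f) = phi F r x (dd F f) := by
  simp only [phi, LinearMap.comp_apply, LinearMap.add_apply, LinearMap.id_apply]
  rw [dd_spread hx]
  congr 1
  rw [map_add, map_add, dd_fix hx, cross_fix]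
  abel

end Vale.Agent.P200.Betti.Pow
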